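import Crest.Agent.Lib.Bern.Ev

/-! # Lib/Bern/Cas : de Casteljau in one variable (helper prefix `cs_`). -/

set_option autoImplicit false

namespace Crest.Agent.Bern

open Finset

/-- Pascal: `bern (d+1) 0 = (1-x) bern d 0`, `bern (d+1) (i+1) = x bern d i + (1-x) bern d (i+1)` -/
theorem sum_bern_succ (d : ℕ) (x : ℝ) (G : ℕ → ℝ) :
    ∑ i ∈ range (d + 2), bern (d + 1) i x * G i =
      ∑ i ∈ range (d + 1), bern d i x * ((1 - x) * G i + x * G (i + 1)) := by
  have h0 : bern (d + 1) 0 x = (1 - x) * bern d 0 x := by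
    simp [bern, pow_succ, mul_comm]
  have hs : ∀ i ∈ range (d + 1), bern (d + 1) (i + 1) x * G (i + 1)
      = x * bern d i x * G (i + 1) + (1 - x) * bern d (i + 1) x * G (i + 1) := by
    intro i hi
    have hi' : i ≤ d := Nat.lt_succ_iff.1 (mem_range.1 hi)
    rw [← add_mul]
    congr 1
    simp only [bern, Nat.choose_succ_succ, Nat.cast_add, Nat.add_sub_add_right]
    rcases hi'.eq_or_lt with rfl | hlt
    · simp [pow_succ, mul_comm]
    · have : d - i = d - (i + 1) + 1 := by omega
      rw [this]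
      ring
  have hz : bern d (d + 1) x = 0 := by simp [bern]
  rw [sum_range_succ', sum_congr rfl hs, sum_add_distrib, h0]
  have h1 := sum_range_succ' (fun i => (1 - x) * bern d i x * G i) (d + 1)
  rw [sum_range_succ, hz] at h1
  simp only [mul_add, sum_add_distrib]
  have h2 : ∑ i ∈ range (d + 1), bern d i x * ((1 - x) * G i) = ∑ i ∈ range (d + 1), (1 - x) * bern d i x * G i :=
    sum_congr rfl fun i _ => by ring
  have h3 : ∑ i ∈ range (d + 1), bern d i x * (x * G (i + 1)) = ∑ i ∈ range (d + 1), x * bern d i x * G (i + 1) :=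
    sum_congr rfl fun i _ => by ring
  rw [h2, h3]
  linarith

theorem bern_symm {d i : ℕ} (h : i ≤ d) (x : ℝ) : bern d (d - i) (1 - x) = bern d i x := by
  simp only [bern, Nat.choose_symm h, Nat.sub_sub_self h, sub_sub_cancel]
  ring

theorem cs_nonneg (d i : ℕ) {x : ℝ} (h0 : 0 ≤ x) (h1 : x ≤ 1) : 0 ≤ bern d i x :=
  mul_nonneg (mul_nonneg (Nat.cast_nonneg _) (pow_nonneg h0 _)) (pow_nonneg (sub_nonneg.2 h1) _)

/-- Left child.  One proof: induction on `d` generalizing `F`, with `sum_bern_succ` on both sides and the new array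
`F' r i = (1-x) F r i + x F (r+1) i`: it satisfies the hypothesis for `r + i < d`, `F' r 0 = (1-x) F r 0 + x F (r+1) 0` and
`F' 0 i ≤ (1 - x/2) F 0 i + (x/2) F 0 (i+1)` for `i ≤ d`. -/
theorem casteljau_left (d : ℕ) (F : ℕ → ℕ → ℝ)
    (h : ∀ r i, r + i < d → F (r + 1) i ≤ (F r i + F r (i + 1)) / 2) {x : ℝ} (h0 : 0 ≤ x) (h1 : x ≤ 1) :
    ∑ r ∈ range (d + 1), bern d r x * F r 0 ≤ ∑ i ∈ range (d + 1), bern d i (x / 2) * F 0 i := by
  induction d generalizing F with
  | zero => simp [bern]
  | succ d ih =>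
    rw [sum_bern_succ, sum_bern_succ d (x / 2) (fun i => F 0 i)]
    refine le_trans (ih (fun r i => (1 - x) * F r i + x * F (r + 1) i) fun r i hri => ?_) ?_
    · have h2 := mul_le_mul_of_nonneg_left (h r i (by omega)) (sub_nonneg.2 h1)
      have h3 := mul_le_mul_of_nonneg_left (h (r + 1) i (by omega)) h0
      linarith
    · refine sum_le_sum fun i hi => mul_le_mul_of_nonneg_left ?_ (cs_nonneg d i (by linarith) (by linarith))
      have h2 := mul_le_mul_of_nonneg_left (h 0 i (by simpa using hi)) h0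
      linarith

/-- Right child: `casteljau_left` for `F' r i = F r (d - r - i)` at `1 - x`, `bern_symm`, `Finset.sum_range_reflect`
(`Finset.sum_flip`). -/
theorem casteljau_right (d : ℕ) (F : ℕ → ℕ → ℝ)
    (h : ∀ r i, r + i < d → F (r + 1) i ≤ (F r i + F r (i + 1)) / 2) {x : ℝ} (h0 : 0 ≤ x) (h1 : x ≤ 1) :
    ∑ i ∈ range (d + 1), bern d i x * F (d - i) i ≤
      ∑ i ∈ range (d + 1), bern d i ((1 + x) / 2) * F 0 i := by
  have key := casteljau_left d (fun r i => F r (d - r - i)) (fun r i hri => by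
    have h2 := h r (d - (r + 1) - i) (by omega)
    have e1 : d - (r + 1) - i + 1 = d - r - i := by omega
    have e2 : d - r - (i + 1) = d - (r + 1) - i := by omega
    rw [e1] at h2
    simp only [e2]
    linarith) (x := 1 - x) (by linarith) (by linarith)
  rw [← sum_flip, ← sum_flip (f := fun i => bern d i ((1 - x) / 2) * F 0 (d - 0 - i))] at key
  refine le_trans (le_of_eq (sum_congr rfl fun i hi => ?_)) (key.trans (le_of_eq (sum_congr rfl fun i hi => ?_)))
  · have hi' : i ≤ d := Nat.lt_succ_iff.1 (mem_range.1 hi)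
    rw [bern_symm hi', Nat.sub_zero, Nat.sub_sub_self hi']
  · have hi' : i ≤ d := Nat.lt_succ_iff.1 (mem_range.1 hi)
    rw [show (1 - x) / 2 = 1 - (1 + x) / 2 by ring, bern_symm hi', Nat.sub_zero, Nat.sub_sub_self hi']

end Crest.Agent.Bern
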