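import Crest.Agent.Lib.Bern.Lane2

/-! # Lib/Bern/Cast : lanes of the two children (helper prefix `ct_`). -/

set_option autoImplicit false

namespace Crest.Agent.Bern

open Finset

/-- iterated averaging -/
def itAvg (sW H X : ℕ) : ℕ → ℕ
  | 0 => X
  | r + 1 => avg sW H (itAvg sW H X r)

theorem bd_itAvg {W V X : ℕ} (hV : V + 1 ≤ W) (hX : Bd W V X) (s n r : ℕ) :
    Bd W V (itAvg (s * W) (half W n) X r) := by
  induction r with
  | zero => exact hX
  | succ r ih => exact bd_avg hV ih s n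

theorem ct_arith {s : ℕ} (hs : 0 < s) {d i : ℕ} (hi : i ≤ d) (q u : ℕ) :
    (¬ u < i * s ∧ (u - i * s) / s % (d + 1) = 0 ∧ u - i * s < q * ((d + 1) * s)) ↔
      (u < q * ((d + 1) * s) ∧ u / s % (d + 1) = i) := by
  have e1 : (u - i * s) / s = u / s - i := by rw [mul_comm]; exact Nat.sub_mul_div u s i
  rw [← mul_assoc, ← Nat.div_lt_iff_lt_mul hs, ← Nat.div_lt_iff_lt_mul hs, ← Nat.div_lt_iff_lt_mul hs, e1]
  generalize u / s = v
  constructor
  · rintro ⟨h1, h2, h3⟩
    obtain ⟨a, ha⟩ := Nat.dvd_of_mod_eq_zero h2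
    have hv : v = i + (d + 1) * a := by omega
    have ha' : a < q := by
      rw [ha, mul_comm q] at h3
      exact Nat.lt_of_mul_lt_mul_left h3
    have h4 : (d + 1) * (a + 1) ≤ (d + 1) * q := Nat.mul_le_mul_left _ ha'
    refine ⟨?_, ?_⟩
    · rw [mul_add, mul_one, mul_comm (d + 1) q] at h4
      omega
    · rw [hv, Nat.add_mul_mod_self_left, Nat.mod_eq_of_lt (by omega)]
  · rintro ⟨h1, h2⟩
    have h3 := Nat.mod_add_div v (d + 1)
    rw [h2] at h3
    refine ⟨by omega, ?_, by omega⟩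
    rw [show v - i = (d + 1) * (v / (d + 1)) by omega, Nat.mul_mod_right]

theorem ct_L {W s : ℕ} (hW : 1 ≤ W) (hs : 0 < s) {d i : ℕ} (hi : i ≤ d) (q Y u : ℕ) :
    lane W ((Y &&& mask0 W d s q) <<< (i * (s * W))) u =
      if u < q * ((d + 1) * s) ∧ u / s % (d + 1) = i then lane W Y (u - i * s) else 0 := by
  rw [← mul_assoc, lane_shiftLeft, lane_land, lane_mask0 hW hs]
  by_cases h : u < q * ((d + 1) * s) ∧ u / s % (d + 1) = i
  · obtain ⟨h1, h2⟩ := (ct_arith hs hi q u).2 h
    rw [if_neg h1, if_pos h2, if_pos h, lane_and_full]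
  · rw [if_neg h]
    split_ifs with h1 h2
    · rfl
    · exact absurd ((ct_arith hs hi q u).1 ⟨h1, h2⟩) h
    · exact Nat.and_zero _

theorem ct_R {W s : ℕ} (hW : 1 ≤ W) (hs : 0 < s) {d i : ℕ} (hi : i ≤ d) (q Y u : ℕ) :
    lane W (Y &&& (mask0 W d s q <<< (i * (s * W)))) u =
      if u < q * ((d + 1) * s) ∧ u / s % (d + 1) = i then lane W Y u else 0 := by
  rw [← mul_assoc, lane_land, lane_shiftLeft, lane_mask0 hW hs]
  by_cases h : u < q * ((d + 1) * s) ∧ u / s % (d + 1) = i
  · obtain ⟨h1, h2⟩ := (ct_arith hs hi q u).2 h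
    rw [if_neg h1, if_pos h2, if_pos h, lane_and_full]
  · rw [if_neg h]
    split_ifs with h1 h2
    · exact Nat.and_zero _
    · exact absurd ((ct_arith hs hi q u).1 ⟨h1, h2⟩) h
    · exact Nat.and_zero _

theorem ct_aux {W s : ℕ} (hW : 1 ≤ W) (hs : 0 < s) (d q H X : ℕ) (n : ℕ) : ∀ r L R : ℕ, r + n = d →
    (∀ u, lane W L u = if u < q * ((d + 1) * s) ∧ u / s % (d + 1) ≤ r then
      lane W (itAvg (s * W) H X (u / s % (d + 1))) (u - u / s % (d + 1) * s) else 0) →
    (∀ u, lane W R u = if u < q * ((d + 1) * s) ∧ n ≤ u / s % (d + 1) then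
      lane W (itAvg (s * W) H X (d - u / s % (d + 1))) u else 0) →
    ∃ L' R', (∀ k, castAux d (s * W) H (mask0 W d s q) k n r (itAvg (s * W) H X r) L R = k L' R') ∧
      (∀ u, lane W L' u = if u < q * ((d + 1) * s) then
        lane W (itAvg (s * W) H X (u / s % (d + 1))) (u - u / s % (d + 1) * s) else 0) ∧
      (∀ u, lane W R' u = if u < q * ((d + 1) * s) then
        lane W (itAvg (s * W) H X (d - u / s % (d + 1))) u else 0) := by
  induction n with
  | zero =>
    intro r L R h hL hR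
    refine ⟨L, R, fun k => rfl, fun u => ?_, fun u => ?_⟩
    · have : u / s % (d + 1) < d + 1 := Nat.mod_lt (u / s) (Nat.succ_pos d)
      rw [hL]
      exact if_congr (and_iff_left (by omega)) rfl rfl
    · rw [hR]
      exact if_congr (and_iff_left (Nat.zero_le _)) rfl rfl
  | succ n ih =>
    intro r L R h hL hR
    refine ih (r + 1) (L ||| (itAvg (s * W) H X (r + 1) &&& mask0 W d s q) <<< ((r + 1) * (s * W)))
      (R ||| (itAvg (s * W) H X (r + 1) &&& (mask0 W d s q <<< (n * (s * W))))) (by omega)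
      (fun u => ?_) fun u => ?_
    · rw [lane_lor, hL, ct_L hW hs (by omega)]
      generalize u / s % (d + 1) = ρ
      by_cases h1 : u < q * ((d + 1) * s)
      · rcases lt_trichotomy ρ (r + 1) with h2 | h2 | h2
        · rw [if_pos ⟨h1, by omega⟩, if_neg (by omega), if_pos ⟨h1, by omega⟩, Nat.or_zero]
        · rw [if_neg (by omega), if_pos ⟨h1, h2⟩, if_pos ⟨h1, by omega⟩, Nat.zero_or, h2]
        · rw [if_neg (by omega), if_neg (by omega), if_neg (by omega), Nat.or_zero]
      · rw [if_neg (by omega), if_neg (by omega), if_neg (by omega), Nat.or_zero]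
    · rw [lane_lor, hR, ct_R hW hs (by omega)]
      generalize u / s % (d + 1) = ρ
      by_cases h1 : u < q * ((d + 1) * s)
      · rcases lt_trichotomy ρ n with h2 | h2 | h2
        · rw [if_neg (by omega), if_neg (by omega), if_neg (by omega), Nat.or_zero]
        · rw [if_neg (by omega), if_pos ⟨h1, h2⟩, if_pos ⟨h1, by omega⟩, Nat.zero_or,
            show d - ρ = r + 1 by omega]
        · rw [if_pos ⟨h1, by omega⟩, if_neg (by omega), if_pos ⟨h1, by omega⟩, Nat.or_zero]
      · rw [if_neg (by omega), if_neg (by omega), if_neg (by omega), Nat.or_zero]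

/-- Invariant of `castAux` (induction on the remaining count `n'`, generalizing `r`, `L`, `R`, with `r + n' = d`, the state being
`itAvg … r`): with `ρ u = u / s % (d+1)` and `n = q ((d+1) s)`,
`lane L u = if u < n ∧ ρ u ≤ r then lane (itAvg (ρ u)) (u - ρ u * s) else 0`,
`lane R u = if u < n ∧ d - r ≤ ρ u then lane (itAvg (d - ρ u)) u else 0`.
Use `lane_lor`, `lane_shiftLeft` (note `(r+1) * (s * W) = ((r+1) * s) * W`), `lane_land`, `lane_mask0`, `lane_and_full`.
Arithmetic: for `i ≤ d`: (`i s ≤ u`, `(u - i s) / s % (d+1) = 0` and `u - i s < n`) iff (`ρ u = i` and `u < n`);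
write `u = (a (d+1) + ρ) s + τ`.  `castAux … (n'+1) r X L R` unfolds by `rfl`/`show`; `Nat.lor a b` is `a ||| b` by `rfl`. -/
theorem cast_spec {W s : ℕ} (hW : 1 ≤ W) (hs : 0 < s) (d q H X : ℕ) :
    ∃ L R, (∀ k, cast d (s * W) H (mask0 W d s q) X k = k L R) ∧
      (∀ u, lane W L u = if u < q * ((d + 1) * s) then
        lane W (itAvg (s * W) H X (u / s % (d + 1))) (u - u / s % (d + 1) * s) else 0) ∧
      (∀ u, lane W R u = if u < q * ((d + 1) * s) then
        lane W (itAvg (s * W) H X (d - u / s % (d + 1))) u else 0) := by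
  refine ct_aux hW hs d q H X d 0 (X &&& mask0 W d s q) (X &&& (mask0 W d s q <<< (d * (s * W))))
    (zero_add d) (fun u => ?_) fun u => ?_
  · have h := ct_L hW hs (Nat.zero_le d) q X u
    rw [zero_mul, Nat.shiftLeft_zero] at h
    rw [h]
    generalize u / s % (d + 1) = ρ
    by_cases h1 : u < q * ((d + 1) * s) ∧ ρ = 0
    · rw [if_pos h1, if_pos ⟨h1.1, h1.2.le⟩, h1.2]
      rfl
    · rw [if_neg h1, if_neg (by omega)]
  · have h0 : u / s % (d + 1) < d + 1 := Nat.mod_lt (u / s) (Nat.succ_pos d)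
    rw [ct_R hW hs le_rfl]
    generalize u / s % (d + 1) = ρ at h0
    by_cases h1 : u < q * ((d + 1) * s) ∧ ρ = d
    · rw [if_pos h1, if_pos ⟨h1.1, h1.2.ge⟩, h1.2, Nat.sub_self]
      rfl
    · rw [if_neg h1, if_neg (by omega)]

end Crest.Agent.Bern
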