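import Crest.Agent.Lib.Bern.Cast
import Crest.Agent.Lib.Bern.Cas

/-! # Lib/Bern/CastAt : subdivision along an axis (helper prefix `ca_`). -/

set_option autoImplicit false

namespace Crest.Agent.Bern

open Finset

/-- Axis `0`.  `s = size r`, `n = q ((d+1) s)`; take `L`, `R` from `cast_spec`.  Put
`F ρ i = ev r (j+1) x (co W V (itAvg … ρ)) (b ((d+1) s) + i s)`; `lane_avg`, `ev_mono`, `ev_add`, `ev_mul`, `ev_shift` give
`F (ρ+1) i ≤ (F ρ i + F ρ (i+1))/2` for `ρ + i < d`; `ev_congr` gives `ev r (j+1) x (co L) (b ((d+1)s) + i s) = F i 0` and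
`… (co R) … = F (d-i) i`; `casteljau_left/right`, `ev_update`. -/
theorem cast_ev {W V X : ℕ} (hV : V + 1 ≤ W) (hX : Bd W V X) (d : ℕ) (r : List ℕ) (q : ℕ) :
    ∃ L R, (∀ k, cast d (size r * W) (half W (q * size (d :: r))) (mask0 W d (size r) q) X k = k L R) ∧
      Bd W V L ∧ Bd W V R ∧ ∀ x, In01 x → ∀ j b, b < q →
        ev (d :: r) j x (co W V L) (b * size (d :: r)) ≤
          ev (d :: r) j (Function.update x j (x j / 2)) (co W V X) (b * size (d :: r)) ∧
        ev (d :: r) j x (co W V R) (b * size (d :: r)) ≤
          ev (d :: r) j (Function.update x j ((1 + x j) / 2)) (co W V X) (b * size (d :: r)) := by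
  have hs : 0 < size r := size_pos r
  have hsz : size (d :: r) = (d + 1) * size r := rfl
  obtain ⟨L, R, hk, hL, hR⟩ :=
    cast_spec (W := W) (by omega) hs d q (half W (q * size (d :: r))) X
  have hY : ∀ ρ, Bd W V (itAvg (size r * W) (half W (q * size (d :: r))) X ρ) :=
    fun ρ => bd_itAvg hV hX _ _ ρ
  refine ⟨L, R, hk, ?_, ?_, ?_⟩
  · intro u
    rw [hL u]
    split_ifs
    · exact hY _ _
    · positivity
  · intro u
    rw [hR u]
    split_ifs
    · exact hY _ _
    · positivity
  intro x hx j b hb
  set Y : ℕ → ℕ := itAvg (size r * W) (half W (q * size (d :: r))) X with hYd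
  set F : ℕ → ℕ → ℝ := fun ρ i => ev r (j + 1) x (co W V (Y ρ)) (b * size (d :: r) + i * size r) with hF
  have hstep : ∀ ρ i, ρ + i < d → F (ρ + 1) i ≤ (F ρ i + F ρ (i + 1)) / 2 := by
    intro ρ i _
    have e : (F ρ i + F ρ (i + 1)) / 2 = ev r (j + 1) x (fun t => (1 / 2 : ℝ) *
        (co W V (Y ρ) (b * size (d :: r) + i * size r + t) +
          co W V (Y ρ) (b * size (d :: r) + (i + 1) * size r + t))) 0 := by
      rw [ev_mul x r (j + 1) 0 (1 / 2 : ℝ) (fun t => co W V (Y ρ) (b * size (d :: r) + i * size r + t) +
          co W V (Y ρ) (b * size (d :: r) + (i + 1) * size r + t)),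
        ev_add x r (j + 1) 0 (fun t => co W V (Y ρ) (b * size (d :: r) + i * size r + t))
          (fun t => co W V (Y ρ) (b * size (d :: r) + (i + 1) * size r + t)), ← ev_shift, ← ev_shift]
      simp only [hF]; ring
    rw [e]
    refine ev_mono hx r (j + 1) fun t _ => ?_
    have h1 : Y (ρ + 1) = avg (size r * W) (half W (q * size (d :: r))) (Y ρ) := rfl
    have h2 : b * size (d :: r) + (i + 1) * size r + t = b * size (d :: r) + i * size r + t + size r := by ring
    simp only [zero_add]
    unfold co
    rw [h1, lane_avg hV (hY ρ), h2]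
    have h3 : (((if b * size (d :: r) + i * size r + t < q * size (d :: r) then
        (lane W (Y ρ) (b * size (d :: r) + i * size r + t) +
          lane W (Y ρ) (b * size (d :: r) + i * size r + t + size r)) / 2 else 0) : ℕ) : ℝ) * 2 ≤
        (lane W (Y ρ) (b * size (d :: r) + i * size r + t) : ℝ) +
          (lane W (Y ρ) (b * size (d :: r) + i * size r + t + size r) : ℝ) := by
      have : (if b * size (d :: r) + i * size r + t < q * size (d :: r) then
        (lane W (Y ρ) (b * size (d :: r) + i * size r + t) +
          lane W (Y ρ) (b * size (d :: r) + i * size r + t + size r)) / 2 else 0) * 2 ≤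
          lane W (Y ρ) (b * size (d :: r) + i * size r + t) +
          lane W (Y ρ) (b * size (d :: r) + i * size r + t + size r) := by
        split_ifs <;> omega
      exact_mod_cast this
    linarith
  have hidx : ∀ i < d + 1, ∀ t < size r,
      b * size (d :: r) + i * size r + t < q * ((d + 1) * size r) ∧
      (b * size (d :: r) + i * size r + t) / size r % (d + 1) = i := by
    intro i hi t ht
    have e : b * size (d :: r) + i * size r + t = t + (i + b * (d + 1)) * size r := by
      rw [hsz]; ring
    rw [e]
    constructor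
    · have h1 : (i + b * (d + 1) + 1) * size r ≤ (q * (d + 1)) * size r := by
        apply Nat.mul_le_mul_right
        have : (b + 1) * (d + 1) ≤ q * (d + 1) := Nat.mul_le_mul_right _ hb
        nlinarith
      nlinarith
    · rw [Nat.add_mul_div_right _ _ hs, Nat.div_eq_of_lt ht, zero_add, Nat.add_mul_mod_self_right,
        Nat.mod_eq_of_lt hi]
  have hev : ∀ (z : ℕ → ℝ) (c : ℕ → ℝ), ev (d :: r) j z c (b * size (d :: r)) =
      ∑ i ∈ range (d + 1), bern d i (z j) * ev r (j + 1) z c (b * size (d :: r) + i * size r) :=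
    fun _ _ => rfl
  have hup : ∀ y : ℝ, ev (d :: r) j (Function.update x j y) (co W V X) (b * size (d :: r)) =
      ∑ i ∈ range (d + 1), bern d i y * F 0 i := by
    intro y
    rw [hev]
    refine sum_congr rfl fun i _ => ?_
    rw [Function.update_self, ev_update x r (Nat.lt_succ_self j)]
    rfl
  constructor
  · rw [hup, hev]
    refine le_trans (le_of_eq ?_) (casteljau_left d F hstep (hx j).1 (hx j).2)
    refine sum_congr rfl fun i hi => ?_
    congr 1
    refine ev_congr x r (j + 1) fun t ht => ?_
    obtain ⟨h1, h2⟩ := hidx i (mem_range.1 hi) t ht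
    unfold co
    rw [hL, if_pos h1, h2]
    congr 3
    omega
  · rw [hup, hev]
    refine le_trans (le_of_eq ?_) (casteljau_right d F hstep (hx j).1 (hx j).2)
    refine sum_congr rfl fun i hi => ?_
    congr 1
    refine ev_congr x r (j + 1) fun t ht => ?_
    obtain ⟨h1, h2⟩ := hidx i (mem_range.1 hi) t ht
    unfold co
    rw [hR, if_pos h1, h2]

/-- Induction on `sh` generalizing `q`, `a`.  `a = 0`: `cast_ev`.  `a = a'+1`: `castAt W H X k (d :: r) q (a'+1) =
castAt W H X k r (q * (d+1)) a'` by `rfl`, `q * size (d :: r) = (q * (d+1)) * size r`, use the induction hypothesis with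
`j+1` and the blocks `b (d+1) + i < q (d+1)`. -/
theorem castAt_spec {W V X : ℕ} (hV : V + 1 ≤ W) (hX : Bd W V X) (sh : List ℕ) (q a : ℕ) (ha : a < sh.length) :
    ∃ L R, (∀ k, castAt W (half W (q * size sh)) X k sh q a = k L R) ∧
      Bd W V L ∧ Bd W V R ∧ ∀ x, In01 x → ∀ j b, b < q →
        ev sh j x (co W V L) (b * size sh) ≤
          ev sh j (Function.update x (j + a) (x (j + a) / 2)) (co W V X) (b * size sh) ∧
        ev sh j x (co W V R) (b * size sh) ≤
          ev sh j (Function.update x (j + a) ((1 + x (j + a)) / 2)) (co W V X) (b * size sh) := by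
  induction sh generalizing q a with
  | nil => simp at ha
  | cons d r ih =>
    cases a with
    | zero => exact cast_ev hV hX d r q
    | succ a' =>
      have hsz : size (d :: r) = (d + 1) * size r := rfl
      obtain ⟨L, R, hk, bL, bR, hev⟩ := ih (q * (d + 1)) a' (by simpa using ha)
      have e : q * size (d :: r) = q * (d + 1) * size r := by rw [hsz]; ring
      refine ⟨L, R, fun k => ?_, bL, bR, fun x hx j b hb => ?_⟩
      · rw [e]; exact hk k
      have hev' : ∀ (z : ℕ → ℝ) (c : ℕ → ℝ), ev (d :: r) j z c (b * size (d :: r)) =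
          ∑ i ∈ range (d + 1), bern d i (z j) * ev r (j + 1) z c ((b * (d + 1) + i) * size r) := by
        intro z c
        have : ev (d :: r) j z c (b * size (d :: r)) =
          ∑ i ∈ range (d + 1), bern d i (z j) * ev r (j + 1) z c (b * size (d :: r) + i * size r) := rfl
        rw [this]
        refine sum_congr rfl fun i _ => ?_
        congr 2
        rw [hsz]; ring
      have hne : j ≠ j + (a' + 1) := by omega
      have hj : j + (a' + 1) = j + 1 + a' := by omega
      have hlt : ∀ i ∈ range (d + 1), b * (d + 1) + i < q * (d + 1) := by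
        intro i hi
        have h1 := mem_range.1 hi
        have : (b + 1) * (d + 1) ≤ q * (d + 1) := Nat.mul_le_mul_right _ hb
        nlinarith
      constructor
      · rw [hev', hev']
        refine sum_le_sum fun i hi => ?_
        rw [Function.update_of_ne hne, hj]
        exact mul_le_mul_of_nonneg_left (hev x hx (j + 1) _ (hlt i hi)).1
          (bern_nonneg d i (hx j).1 (hx j).2)
      · rw [hev', hev']
        refine sum_le_sum fun i hi => ?_
        rw [Function.update_of_ne hne, hj]
        exact mul_le_mul_of_nonneg_left (hev x hx (j + 1) _ (hlt i hi)).2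
          (bern_nonneg d i (hx j).1 (hx j).2)

theorem castAt_of_le (W H X : ℕ) (k : ℕ → ℕ → ℕ) (sh : List ℕ) (q a : ℕ) (ha : sh.length ≤ a) :
    castAt W H X k sh q a = 0 := by
  induction sh generalizing q a with
  | nil => rfl
  | cons d r ih =>
    cases a with
    | zero => simp at ha
    | succ a' => exact ih (q * (d + 1)) a' (by simpa using ha)

/-- for `x` in the cube with `x a ≤ 1/2` apply `hL` at `update x a (2 * x a)`, otherwise `hR` at `update x a (2 * x a - 1)` -/
theorem good_of_children {W V X : ℕ} (hV : V + 1 ≤ W) (sh : List ℕ) (m a : ℕ) (ha : a < sh.length)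
    (h : ∀ L R, (∀ k, castAt W (half W (m * size sh)) X k sh m a = k L R) → Bd W V X →
      Good W V sh m L ∧ Good W V sh m R) : Good W V sh m X := by
  intro hX x hx p hp hneg
  obtain ⟨L, R, hk, bL, bR, hev⟩ := castAt_spec hV hX sh m a ha
  obtain ⟨gL, gR⟩ := h L R hk hX
  have hin : ∀ y : ℝ, 0 ≤ y → y ≤ 1 → In01 (Function.update x a y) := by
    intro y h0 h1 i
    by_cases hi : i = a
    · rw [hi, Function.update_self]; exact ⟨h0, h1⟩
    · rw [Function.update_of_ne hi]; exact hx i
  by_cases hxa : x a ≤ 1 / 2
  · have hy := hin (2 * x a) (by linarith [(hx a).1]) (by linarith)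
    refine gL bL _ hy p (fun j hj => ?_) hneg
    have h1 := (hev _ hy 0 j hj).1
    rw [zero_add, Function.update_self, Function.update_idem,
      show 2 * x a / 2 = x a by ring, Function.update_eq_self] at h1
    exact h1.trans (hp j hj)
  · have hy := hin (2 * x a - 1) (by linarith [not_le.1 hxa]) (by linarith [(hx a).2])
    refine gR bR _ hy p (fun j hj => ?_) hneg
    have h1 := (hev _ hy 0 j hj).2
    rw [zero_add, Function.update_self, Function.update_idem,
      show (1 + (2 * x a - 1)) / 2 = x a by ring, Function.update_eq_self] at h1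
    exact h1.trans (hp j hj)

theorem good_join {W V X : ℕ} (hV : V + 1 ≤ W) (sh : List ℕ) (m a : ℕ) (ha : a < sh.length)
    (hL : Good W V sh m (child W sh m a false X)) (hR : Good W V sh m (child W sh m a true X)) :
    Good W V sh m X := by
  refine good_of_children hV sh m a ha fun L R hk _ => ?_
  have e1 : child W sh m a false X = L := hk (fun L R => @Bool.rec (fun _ => ℕ) L R false)
  have e2 : child W sh m a true X = R := hk (fun L R => @Bool.rec (fun _ => ℕ) L R true)
  rw [e1] at hL
  rw [e2] at hR
  exact ⟨hL, hR⟩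

theorem good_sub_join {W V X : ℕ} (hV : V + 1 ≤ W) (sh : List ℕ) (m a : ℕ) (ha : a < sh.length)
    (p : List (ℕ × Bool)) (hL : Good W V sh m (sub W sh m X ((a, false) :: p)))
    (hR : Good W V sh m (sub W sh m X ((a, true) :: p))) : Good W V sh m (sub W sh m X p) :=
  good_join hV sh m a ha hL hR

end Crest.Agent.Bern
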