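import Mathlib

/-! # Lib/Bern/Defs : kernel Bernstein branch-and-bound (owner helper67).  Definitions.
A tensor of Bernstein coefficients is packed into one natural number, `W` bits per lane. -/

set_option autoImplicit false

namespace Crest.Agent.Bern

open Finset

/-- lane `t` of width `W` -/
def lane (W N t : ℕ) : ℕ := N / 2 ^ (W * t) % 2 ^ W

/-- number of coefficients of a shape (list of degrees, outermost axis first) -/
def size : List ℕ → ℕ
  | [] => 1
  | d :: r => (d + 1) * size r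

/-- Bernstein basis -/
noncomputable def bern (d i : ℕ) (x : ℝ) : ℝ := (d.choose i : ℝ) * x ^ i * (1 - x) ^ (d - i)

/-- tensor Bernstein form; the head of the shape is the variable `j`, coefficients start at `b` -/
noncomputable def ev : List ℕ → ℕ → (ℕ → ℝ) → (ℕ → ℝ) → ℕ → ℝ
  | [], _, _, c, b => c b
  | d :: r, j, x, c, b => ∑ i ∈ range (d + 1), bern d i (x j) * ev r (j + 1) x c (b + i * size r)

/-- the unit cube -/
def In01 (x : ℕ → ℝ) : Prop := ∀ j, 0 ≤ x j ∧ x j ≤ 1

/-- all lanes are below `2^V` -/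
def Bd (W V X : ℕ) : Prop := ∀ t, lane W X t < 2 ^ V

/-- stored coefficient (offset `2^(V-1)`) -/
noncomputable def co (W V X t : ℕ) : ℝ := (lane W X t : ℝ) - 2 ^ (V - 1)

/-- The `m` blocks of `X` are lower bounds for numbers `p 0, …, p (m-1)`; hypotheses `p j ≤ 0` (`j ≥ 1`), goal `0 ≤ p 0`. -/
def Good (W V : ℕ) (sh : List ℕ) (m X : ℕ) : Prop :=
  Bd W V X → ∀ x, In01 x → ∀ p : ℕ → ℝ, (∀ j < m, ev sh 0 x (co W V X) (j * size sh) ≤ p j) →
    (∀ j, 1 ≤ j → j < m → p j ≤ 0) → 0 ≤ p 0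

/-! ### kernel programs -/

/-- `∑_{t<n} 2^(W t)` -/
def ones (W n : ℕ) : ℕ :=
  Nat.div (Nat.sub (Nat.shiftLeft 1 (Nat.mul W n)) 1) (Nat.sub (Nat.shiftLeft 1 W) 1)

/-- `2^n - 1` -/
def full (n : ℕ) : ℕ := Nat.sub (Nat.shiftLeft 1 n) 1

/-- lanes `t < n` with value `2^(W-1) - 1` -/
def half (W n : ℕ) : ℕ := Nat.mul (full (Nat.sub W 1)) (ones W n)

/-- lanes `t < q (d+1) s` with `t / s % (d+1) = 0` are full -/
def mask0 (W d s q : ℕ) : ℕ := Nat.mul (full (Nat.mul s W)) (ones (Nat.mul (Nat.mul (Nat.succ d) s) W) q)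

/-- one level of de Casteljau -/
def avg (sW H X : ℕ) : ℕ := Nat.land (Nat.shiftRight (Nat.add X (Nat.shiftRight X sW)) 1) H

/-- `n` more levels; `r` levels are done -/
noncomputable def castAux (d sW H M : ℕ) (k : ℕ → ℕ → ℕ) (n : ℕ) : ℕ → ℕ → ℕ → ℕ → ℕ :=
  @Nat.rec (fun _ => ℕ → ℕ → ℕ → ℕ → ℕ) (fun _ _ L R => k L R)
    (fun n' ih r X L R =>
      (fun Y => ih (Nat.succ r) Y
        (Nat.lor L (Nat.shiftLeft (Nat.land Y M) (Nat.mul (Nat.succ r) sW)))
        (Nat.lor R (Nat.land Y (Nat.shiftLeft M (Nat.mul n' sW))))) (avg sW H X)) n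

/-- subdivision at the midpoint along the axis with degree `d`, stride `sW` bits, mask `M` -/
noncomputable def cast (d sW H M X : ℕ) (k : ℕ → ℕ → ℕ) : ℕ :=
  castAux d sW H M k d 0 X (Nat.land X M) (Nat.land X (Nat.shiftLeft M (Nat.mul d sW)))

/-- subdivision along the axis `a` of the shape; `q` = number of repetitions of the remaining shape -/
noncomputable def castAt (W H X : ℕ) (k : ℕ → ℕ → ℕ) (sh : List ℕ) : ℕ → ℕ → ℕ :=
  @List.rec ℕ (fun _ => ℕ → ℕ → ℕ) (fun _ _ => 0)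
    (fun d r ih q a => @Nat.rec (fun _ => ℕ)
      (cast d (Nat.mul (size r) W) H (mask0 W d (size r) q) X k)
      (fun a' _ => ih (Nat.mul q (Nat.succ d)) a') a) sh

/-- a child box -/
noncomputable def child (W : ℕ) (sh : List ℕ) (m a : ℕ) (b : Bool) (X : ℕ) : ℕ :=
  castAt W (half W (Nat.mul m (size sh))) X (fun L R => @Bool.rec (fun _ => ℕ) L R b) sh m a

/-- a descendant; the head of the path is the LAST step -/
noncomputable def sub (W : ℕ) (sh : List ℕ) (m X : ℕ) (p : List (ℕ × Bool)) : ℕ :=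
  @List.rec (ℕ × Bool) (fun _ => ℕ) X (fun ab _ ih => child W sh m ab.1 ab.2 ih) p

/-- weight number `j` in the stream -/
def wgt (wb s j : ℕ) : ℕ := Nat.land (Nat.shiftRight s (Nat.mul j wb)) (full wb)

/-- `∑_{j<n} w_j` -/
noncomputable def wsum (wb s n : ℕ) : ℕ := @Nat.rec (fun _ => ℕ) 0 (fun j ih => Nat.add ih (wgt wb s j)) n

/-- `∑_{j<n} w_j · block j` -/
noncomputable def comb (SW wb s X n : ℕ) : ℕ :=
  @Nat.rec (fun _ => ℕ) 0 (fun j ih => @Bool.rec (fun _ => ℕ)
    (Nat.add ih (Nat.mul (wgt wb s j) (Nat.land (Nat.shiftRight X (Nat.mul j SW)) (full SW)))) ih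
    (Nat.beq (wgt wb s j) 0)) n

/-- leaf test: `∑ w_j (block j) ≥ 0` lane by lane, strictly if `w_0 = 0` -/
noncomputable def leaf (W V S m wb s X : ℕ) : Bool :=
  @Bool.rec (fun _ => Bool) false
    (Nat.beq
      (Nat.land (Nat.add (comb (Nat.mul S W) wb s X m)
          (Nat.mul (Nat.sub (Nat.shiftLeft 1 (Nat.sub W 1))
            (Nat.add (Nat.shiftLeft (wsum wb s m) (Nat.sub V 1))
              (@Bool.rec (fun _ => ℕ) 0 1 (Nat.beq (wgt wb s 0) 0)))) (ones W S)))
        (Nat.shiftLeft (ones W S) (Nat.sub W 1)))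
      (Nat.shiftLeft (ones W S) (Nat.sub W 1)))
    (Nat.ble (Nat.shiftLeft (Nat.succ (wsum wb s m)) V) (Nat.shiftLeft 1 (Nat.sub W 1)))

/-- The search tree is read from the stream `s` (4 bits per node: `a < 15` = split along `a`, `15` = leaf followed by
`m` weights of `wb` bits).  Returns `0` (failure) or the rest of the stream plus one. -/
noncomputable def go (W V : ℕ) (sh : List ℕ) (m wb fuel : ℕ) : ℕ → ℕ → ℕ :=
  @Nat.rec (fun _ => ℕ → ℕ → ℕ) (fun _ _ => 0)
    (fun _ ih X s => @Bool.rec (fun _ => ℕ)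
      (castAt W (half W (Nat.mul m (size sh))) X
        (fun L R => @Bool.rec (fun _ => ℕ) 0
          (@Nat.rec (fun _ => ℕ) 0 (fun s1 _ => ih R s1) (ih L (Nat.shiftRight s 4)))
          (Nat.ble 1 L)) sh m (Nat.land s 15))
      (@Bool.rec (fun _ => ℕ) 0 (Nat.succ (Nat.shiftRight s (Nat.add 4 (Nat.mul m wb))))
        (leaf W V (size sh) m wb (Nat.shiftRight s 4) X))
      (Nat.beq (Nat.land s 15) 15)) fuel

/-- test of `Bd` for a number with at most `n` lanes -/
def bdTest (W V n X : ℕ) : Bool := Nat.beq (Nat.land X (Nat.mul (full V) (ones W n))) X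

/-! ### polynomial expressions -/

/-- polynomial expressions with integer constants -/
inductive PE : Type
  | var : ℕ → PE
  | cst : ℤ → PE
  | add : PE → PE → PE
  | sub : PE → PE → PE
  | mul : PE → PE → PE
  | pow : PE → ℕ → PE

/-- real value -/
noncomputable def PE.eval (x : ℕ → ℝ) : PE → ℝ
  | .var j => x j
  | .cst z => (z : ℝ)
  | .add a b => a.eval x + b.eval x
  | .sub a b => a.eval x - b.eval x
  | .mul a b => a.eval x * b.eval x
  | .pow a n => a.eval x ^ n

/-- formal degree in the variable `j` -/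
noncomputable def PE.deg (j : ℕ) (e : PE) : ℕ :=
  @PE.rec (fun _ => ℕ) (fun i => @Bool.rec (fun _ => ℕ) 0 1 (Nat.beq i j)) (fun _ => 0)
    (fun _ _ a b => Nat.add a (Nat.sub b a)) (fun _ _ a b => Nat.add a (Nat.sub b a))
    (fun _ _ a b => Nat.add a b) (fun _ n a => Nat.mul a n) e

/-- all variables are `< k` -/
noncomputable def PE.wf (k : ℕ) (e : PE) : Bool :=
  @PE.rec (fun _ => Bool) (fun i => Nat.ble (Nat.succ i) k) (fun _ => true)
    (fun _ _ a b => and a b) (fun _ _ a b => and a b) (fun _ _ a b => and a b) (fun _ _ a => a) e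

/-- stride of the variable `j` -/
noncomputable def stride (sh : List ℕ) : ℕ → ℕ :=
  @List.rec ℕ (fun _ => ℕ → ℕ) (fun _ => 0)
    (fun _ r ih j => @Nat.rec (fun _ => ℕ) (size r) (fun j' _ => ih j') j) sh

/-- `∏_{j<k} (1 + y j)^(δ j)` -/
noncomputable def elev (y δ : ℕ → ℕ) (k : ℕ) : ℕ :=
  @Nat.rec (fun _ => ℕ) 1 (fun j ih => Nat.mul ih (Nat.pow (Nat.succ (y j)) (δ j))) k

/-- value at `y` of `∏ (1+y_j)^(deg j) · e (y/(1+y))` -/
noncomputable def PE.hom (y : ℕ → ℕ) (k : ℕ) (e : PE) : ℤ :=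
  @PE.rec (fun _ => ℤ) (fun i => Int.ofNat (y i)) (fun z => z)
    (fun a b va vb => Int.add
      (Int.mul va (Int.ofNat (elev y (fun j => Nat.sub (b.deg j) (a.deg j)) k)))
      (Int.mul vb (Int.ofNat (elev y (fun j => Nat.sub (a.deg j) (b.deg j)) k))))
    (fun a b va vb => Int.sub
      (Int.mul va (Int.ofNat (elev y (fun j => Nat.sub (b.deg j) (a.deg j)) k)))
      (Int.mul vb (Int.ofNat (elev y (fun j => Nat.sub (a.deg j) (b.deg j)) k))))
    (fun _ _ va vb => Int.mul va vb) (fun _ n va => Int.pow va n) e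

/-- bound for the sum of the absolute values of the coefficients -/
noncomputable def PE.nrm (k : ℕ) (e : PE) : ℕ :=
  @PE.rec (fun _ => ℕ) (fun _ => 1) (fun z => Int.natAbs z)
    (fun a b va vb => Nat.add
      (Nat.mul va (elev (fun _ => 1) (fun j => Nat.sub (b.deg j) (a.deg j)) k))
      (Nat.mul vb (elev (fun _ => 1) (fun j => Nat.sub (a.deg j) (b.deg j)) k)))
    (fun a b va vb => Nat.add
      (Nat.mul va (elev (fun _ => 1) (fun j => Nat.sub (b.deg j) (a.deg j)) k))
      (Nat.mul vb (elev (fun _ => 1) (fun j => Nat.sub (a.deg j) (b.deg j)) k)))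
    (fun _ _ va vb => Nat.mul va vb) (fun _ n va => Nat.pow va n) e

/-- all degrees fit into the shape -/
noncomputable def degOk (sh : List ℕ) (e : PE) (k : ℕ) : Bool :=
  @Nat.rec (fun _ => Bool) true (fun j ih => and ih (Nat.ble (e.deg j) (sh.getD j 0))) k

/-- Kronecker point -/
noncomputable def kpt (W0 : ℕ) (sh : List ℕ) (j : ℕ) : ℕ := Nat.shiftLeft 1 (Nat.mul W0 (stride sh j))

/-- lanes (width `W0`) `a_I + 2^(W0-1)`, `a_I` the coefficients of `∏ x^I (1-x)^(d-I)` -/
noncomputable def kron (W0 : ℕ) (sh : List ℕ) (e : PE) : ℕ :=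
  Int.toNat (Int.add
    (Int.mul (e.hom (kpt W0 sh) sh.length)
      (Int.ofNat (elev (kpt W0 sh) (fun j => Nat.sub (sh.getD j 0) (e.deg j)) sh.length)))
    (Int.ofNat (Nat.shiftLeft (ones W0 (size sh)) (Nat.sub W0 1))))

/-- the side conditions of `kron` -/
noncomputable def kronOk (W0 : ℕ) (sh : List ℕ) (e : PE) : Bool :=
  and (and (e.wf sh.length) (degOk sh e sh.length))
    (Nat.ble (Nat.succ (Nat.mul (e.nrm sh.length)
        (elev (fun _ => 1) (fun j => Nat.sub (sh.getD j 0) (e.deg j)) sh.length)))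
      (Nat.shiftLeft 1 (Nat.sub W0 1)))

/-- `min (⌊(N - 2^(W0-1)) / c⌋ + 2^(V-1)) 2^V`, and `2^V` if this is negative -/
noncomputable def rleaf (W0 V N c : ℕ) : ℕ :=
  @Bool.rec (fun _ => ℕ) (Nat.shiftLeft 1 V)
    ((fun v => Nat.sub v (Nat.sub v (Nat.shiftLeft 1 V)))
      (Nat.div (Nat.sub (Nat.add N (Nat.shiftLeft c (Nat.sub V 1))) (Nat.shiftLeft 1 (Nat.sub W0 1))) c))
    (Nat.ble (Nat.shiftLeft 1 (Nat.sub W0 1)) (Nat.add N (Nat.shiftLeft c (Nat.sub V 1))))

/-- binomial coefficient -/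
noncomputable def binom (d i : ℕ) : ℕ :=
  @Nat.rec (fun _ => ℕ) 1 (fun l ih => Nat.div (Nat.mul ih (Nat.sub d l)) (Nat.succ l)) i

/-- repack from width `W0` to width `W`, dividing by `c` times the binomials -/
noncomputable def repack (W0 W V : ℕ) (sh : List ℕ) : ℕ → ℕ → ℕ :=
  @List.rec ℕ (fun _ => ℕ → ℕ → ℕ) (fun N c => rleaf W0 V N c)
    (fun d r ih N c => @Nat.rec (fun _ => ℕ) 0
      (fun i acc => Nat.lor acc (Nat.shiftLeft
        (ih (Nat.land (Nat.shiftRight N (Nat.mul (Nat.mul i (size r)) W0)) (full (Nat.mul (size r) W0)))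
          (Nat.mul c (binom d i))) (Nat.mul (Nat.mul i (size r)) W))) (Nat.succ d)) sh

/-- the root tensor: one block for each pair (expression, positive divisor); the head of the list is block `0` -/
noncomputable def root (W0 W V : ℕ) (sh : List ℕ) (es : List (PE × ℕ)) : ℕ :=
  @List.rec (PE × ℕ) (fun _ => ℕ) 0
    (fun e _ ih => Nat.lor (repack W0 W V sh (kron W0 sh e.1) e.2)
      (Nat.shiftLeft ih (Nat.mul (size sh) W))) es

/-- the side conditions of `root` -/
noncomputable def rootOk (W0 : ℕ) (sh : List ℕ) (es : List (PE × ℕ)) : Bool :=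
  @List.rec (PE × ℕ) (fun _ => Bool) true
    (fun e _ ih => and (and (kronOk W0 sh e.1) (Nat.ble 1 e.2)) ih) es

/-- product of the binomials of the multi-index with linear index `t` -/
def cb : List ℕ → ℕ → ℕ
  | [], _ => 1
  | d :: r, t => d.choose (t / size r) * cb r (t % size r)

end Crest.Agent.Bern
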