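import Crest.Agent.Lib.Bern.Defs

/-! # Lib/Bern/Ev : the tensor Bernstein form (helper prefix `ev_`). All by induction on the shape, generalizing `j`, `b`. -/

set_option autoImplicit false

namespace Crest.Agent.Bern

open Finset

theorem size_pos (sh : List ℕ) : 0 < size sh := by
  induction sh with
  | nil => simp [size]
  | cons d r ih => simp only [size]; positivity

theorem bern_nonneg (d i : ℕ) {x : ℝ} (h0 : 0 ≤ x) (h1 : x ≤ 1) : 0 ≤ bern d i x := by
  have : 0 ≤ 1 - x := by linarith
  unfold bern; positivity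

/-- `add_pow` -/
theorem sum_bern (d : ℕ) (x : ℝ) : ∑ i ∈ range (d + 1), bern d i x = 1 := by
  have h := add_pow x (1 - x) d
  rw [show x + (1 - x) = 1 by ring, one_pow] at h
  rw [h]
  refine Finset.sum_congr rfl fun i _ => ?_
  unfold bern; ring

theorem ev_lt {d i t : ℕ} {r : List ℕ} (hi : i ∈ range (d + 1)) (ht : t < size r) :
    i * size r + t < size (d :: r) := by
  have hi' : i + 1 ≤ d + 1 := by simpa using hi
  have : (i + 1) * size r ≤ (d + 1) * size r := Nat.mul_le_mul_right _ hi'
  simp only [size]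
  nlinarith

theorem ev_mono {x : ℕ → ℝ} (hx : In01 x) (sh : List ℕ) (j : ℕ) {c c' : ℕ → ℝ} {b b' : ℕ}
    (h : ∀ t < size sh, c (b + t) ≤ c' (b' + t)) : ev sh j x c b ≤ ev sh j x c' b' := by
  induction sh generalizing j b b' with
  | nil => simpa [ev] using h 0 (by simp [size])
  | cons d r ih =>
    simp only [ev]
    refine Finset.sum_le_sum fun i hi => ?_
    refine mul_le_mul_of_nonneg_left (ih (j + 1) fun t ht => ?_) (bern_nonneg d i (hx j).1 (hx j).2)
    have := h (i * size r + t) (ev_lt hi ht)
    simpa [add_assoc] using this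

theorem ev_congr (x : ℕ → ℝ) (sh : List ℕ) (j : ℕ) {c c' : ℕ → ℝ} {b b' : ℕ}
    (h : ∀ t < size sh, c (b + t) = c' (b' + t)) : ev sh j x c b = ev sh j x c' b' := by
  induction sh generalizing j b b' with
  | nil => simpa [ev] using h 0 (by simp [size])
  | cons d r ih =>
    simp only [ev]
    refine Finset.sum_congr rfl fun i hi => ?_
    rw [ih (j + 1) (b := b + i * size r) (b' := b' + i * size r) fun t ht => ?_]
    have := h (i * size r + t) (ev_lt hi ht)
    simpa [add_assoc] using this

theorem ev_const (x : ℕ → ℝ) (sh : List ℕ) (j b : ℕ) (a : ℝ) : ev sh j x (fun _ => a) b = a := by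
  induction sh generalizing j b with
  | nil => simp [ev]
  | cons d r ih =>
    simp only [ev, ih]
    rw [← Finset.sum_mul, sum_bern, one_mul]

theorem ev_add (x : ℕ → ℝ) (sh : List ℕ) (j b : ℕ) (c c' : ℕ → ℝ) :
    ev sh j x (fun t => c t + c' t) b = ev sh j x c b + ev sh j x c' b := by
  induction sh generalizing j b with
  | nil => simp [ev]
  | cons d r ih =>
    simp only [ev, ih, mul_add, Finset.sum_add_distrib]

theorem ev_mul (x : ℕ → ℝ) (sh : List ℕ) (j b : ℕ) (a : ℝ) (c : ℕ → ℝ) :
    ev sh j x (fun t => a * c t) b = a * ev sh j x c b := by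
  induction sh generalizing j b with
  | nil => simp [ev]
  | cons d r ih =>
    simp only [ev, ih, Finset.mul_sum]
    refine Finset.sum_congr rfl fun i _ => by ring

theorem ev_sum {ι : Type} (s : Finset ι) (x : ℕ → ℝ) (sh : List ℕ) (j b : ℕ) (c : ι → ℕ → ℝ) :
    ev sh j x (fun t => ∑ i ∈ s, c i t) b = ∑ i ∈ s, ev sh j x (c i) b := by
  induction sh generalizing j b with
  | nil => simp [ev]
  | cons d r ih =>
    simp only [ev, ih, Finset.mul_sum]
    rw [Finset.sum_comm]

theorem ev_shift (x : ℕ → ℝ) (sh : List ℕ) (j b : ℕ) (c : ℕ → ℝ) :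
    ev sh j x c b = ev sh j x (fun t => c (b + t)) 0 := by
  exact ev_congr x sh j fun t _ => by simp

/-- `ev sh j` only reads the variables `≥ j` -/
theorem ev_update (x : ℕ → ℝ) (sh : List ℕ) {i j : ℕ} (hij : i < j) (y : ℝ) (c : ℕ → ℝ) (b : ℕ) :
    ev sh j (Function.update x i y) c b = ev sh j x c b := by
  induction sh generalizing j b with
  | nil => simp [ev]
  | cons d r ih =>
    simp only [ev]
    refine Finset.sum_congr rfl fun l _ => ?_
    rw [ih (by omega), Function.update_of_ne (by omega)]

end Crest.Agent.Bern
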