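import Crest.Agent.Lib.Bern.Lane2
import Crest.Agent.Lib.Bern.Ev

/-! # Lib/Bern/Leaf : the leaf test (helper prefix `lf_`). -/

set_option autoImplicit false

namespace Crest.Agent.Bern

open Finset

theorem wsum_eq (wb s n : ℕ) : wsum wb s n = ∑ j ∈ range n, wgt wb s j := by
  induction n with
  | zero => rfl
  | succ n ih =>
    rw [sum_range_succ, ← ih]; rfl

theorem lf_comb_succ (SW wb s X n : ℕ) :
    comb SW wb s X (n + 1) = comb SW wb s X n + wgt wb s n * lane SW X n := by
  have h : comb SW wb s X (n + 1) = @Bool.rec (fun _ => ℕ)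
      (comb SW wb s X n + wgt wb s n * ((X >>> (n * SW)) &&& full SW)) (comb SW wb s X n)
      (Nat.beq (wgt wb s n) 0) := rfl
  rw [h, land_shiftRight_full]
  cases hb : Nat.beq (wgt wb s n) 0 with
  | false => rfl
  | true =>
    have h0 := Nat.eq_of_beq_eq_true hb
    show comb SW wb s X n = _
    rw [h0]; simp

theorem lf_sum_le {W V S X : ℕ} (hX : Bd W V X) (wb s n t : ℕ) :
    ∑ j ∈ range n, wgt wb s j * lane W X (j * S + t) ≤ wsum wb s n * 2 ^ V := by
  rw [wsum_eq, sum_mul]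
  exact sum_le_sum fun j _ => Nat.mul_le_mul_left _ (hX _).le

/-- induction on `n`; `land_shiftRight_full`, `lane_lane`, `lane_mul`, `lane_add` -/
theorem lane_comb {W V S X : ℕ} (hX : Bd W V X) (wb s n : ℕ) (h : wsum wb s n * 2 ^ V < 2 ^ W) (t : ℕ) :
    lane W (comb (S * W) wb s X n) t =
      if t < S then ∑ j ∈ range n, wgt wb s j * lane W X (j * S + t) else 0 := by
  induction n generalizing t with
  | zero =>
    have h0 : comb (S * W) wb s X 0 = 0 := rfl
    rw [h0, lane_zero]; simp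
  | succ n ih =>
    have hw : wsum wb s (n + 1) = wsum wb s n + wgt wb s n := rfl
    rw [hw, add_mul] at h
    have ih' := ih (by omega)
    have hb : ∀ u, wgt wb s n * lane W (lane (S * W) X n) u ≤ wgt wb s n * 2 ^ V := by
      intro u
      apply Nat.mul_le_mul_left
      rw [lane_lane]
      split_ifs
      · exact (hX _).le
      · exact Nat.zero_le _
    have hm : ∀ u, lane W (wgt wb s n * lane (S * W) X n) u =
        wgt wb s n * lane W (lane (S * W) X n) u :=
      fun u => lane_mul (fun u => by have := hb u; omega) u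
    have ha : ∀ u, lane W (comb (S * W) wb s X n) u ≤ wsum wb s n * 2 ^ V := by
      intro u
      rw [ih' u]
      split_ifs
      · exact lf_sum_le hX wb s n u
      · exact Nat.zero_le _
    rw [lf_comb_succ, lane_add (fun u => by
      have h1 := ha u
      have h2 := hb u
      rw [hm u]; omega), ih' t, hm t, lane_lane]
    split_ifs
    · rw [sum_range_succ]
    · simp

/-- With `w = wsum`, `δ = if wgt 0 = 0 then 1 else 0`: `(w+1) 2^V ≤ 2^(W-1)`; the lanes `t < S` of the sum are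
`∑ w_j lane_j + (2^(W-1) - (w 2^(V-1) + δ)) < 2^W`; `ones W S <<< (W-1) = 2^(W-1) * ones W S`; the top bit is set, so the lane is
`≥ 2^(W-1)`. -/
theorem leaf_lanes {W V S m wb s X : ℕ} (hV1 : 1 ≤ V) (hV : V + 1 ≤ W) (hX : Bd W V X)
    (h : leaf W V S m wb s X = true) (t : ℕ) (ht : t < S) :
    wsum wb s m * 2 ^ (V - 1) + (if wgt wb s 0 = 0 then 1 else 0) ≤
      ∑ j ∈ range m, wgt wb s j * lane W X (j * S + t) := by
  have hδ : (@Bool.rec (fun _ => ℕ) 0 1 (Nat.beq (wgt wb s 0) 0)) = if wgt wb s 0 = 0 then 1 else 0 := by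
    cases hb : Nat.beq (wgt wb s 0) 0 with
    | false =>
      have h0 := Nat.ne_of_beq_eq_false hb
      rw [if_neg h0]
    | true =>
      have h0 := Nat.eq_of_beq_eq_true hb
      rw [if_pos h0]
  have hl : leaf W V S m wb s X = @Bool.rec (fun _ => Bool) false
      (Nat.beq ((comb (S * W) wb s X m + (1 <<< (W - 1) - (wsum wb s m <<< (V - 1) +
        @Bool.rec (fun _ => ℕ) 0 1 (Nat.beq (wgt wb s 0) 0))) * ones W S) &&& (ones W S <<< (W - 1)))
        (ones W S <<< (W - 1)))
      (Nat.ble ((wsum wb s m + 1) <<< V) (1 <<< (W - 1))) := rfl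
  rw [hl, hδ] at h
  set δ : ℕ := if wgt wb s 0 = 0 then 1 else 0 with hδd
  have hδ1 : δ ≤ 1 := by rw [hδd]; split_ifs <;> omega
  cases hb : Nat.ble ((wsum wb s m + 1) <<< V) (1 <<< (W - 1)) with
  | false => rw [hb] at h; exact absurd h (by simp)
  | true =>
    rw [hb] at h
    have h1 := Nat.le_of_ble_eq_true hb
    have h2 := Nat.eq_of_beq_eq_true (show Nat.beq _ _ = true from h)
    simp only [Nat.shiftLeft_eq, one_mul] at h1 h2
    have hW : 1 ≤ W := by omega
    have e1 : 2 ^ W = 2 * 2 ^ (W - 1) := by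
      rw [← pow_succ']; congr 1; omega
    have e2 : 2 ^ V = 2 * 2 ^ (V - 1) := by
      rw [← pow_succ']; congr 1; omega
    have p1 : 0 < 2 ^ (W - 1) := by positivity
    have p2 : 0 < 2 ^ (V - 1) := by positivity
    have e3 : wsum wb s m * 2 ^ V = 2 * (wsum wb s m * 2 ^ (V - 1)) := by rw [e2]; ring
    rw [add_mul, one_mul] at h1
    have hc : ∀ u, lane W (comb (S * W) wb s X m) u =
        if u < S then ∑ j ∈ range m, wgt wb s j * lane W X (j * S + u) else 0 :=
      lane_comb hX wb s m (by omega)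
    have hd : ∀ u, lane W ((2 ^ (W - 1) - (wsum wb s m * 2 ^ (V - 1) + δ)) * ones W S) u =
        if u < S then 2 ^ (W - 1) - (wsum wb s m * 2 ^ (V - 1) + δ) else 0 :=
      lane_mul_ones hW (by omega) S
    have h3 := congrArg (fun N => lane W N t) h2
    rw [lane_land, mul_comm (ones W S), lane_mul_ones hW (by omega), if_pos ht, lane_add (fun u => by
      rw [hc u, hd u]
      have := lf_sum_le (S := S) hX wb s m u
      split_ifs <;> omega), hc t, hd t, if_pos ht, if_pos ht] at h3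
    have h4 : 2 ^ (W - 1) ≤ ∑ j ∈ range m, wgt wb s j * lane W X (j * S + t) +
        (2 ^ (W - 1) - (wsum wb s m * 2 ^ (V - 1) + δ)) := by
      conv_lhs => rw [← h3]
      exact Nat.and_le_left
    omega

/-- `δ ≤ ∑ w_j co (j S + t)` for all `t < S`; `ev_const`, `ev_mono`, `ev_sum`, `ev_mul`, `ev_shift` give
`δ ≤ ∑ w_j ev_j ≤ ∑ w_j p_j ≤ w_0 p_0` (for `m = 0`: if `w_0 = 0` the lane inequality at `t = 0` is false, otherwise … see below).
The hypothesis `1 ≤ m` avoids this case. -/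
theorem good_of_leaf {W V m wb s X : ℕ} {sh : List ℕ} (hV1 : 1 ≤ V) (hV : V + 1 ≤ W) (hm : 1 ≤ m)
    (h : leaf W V (size sh) m wb s X = true) : Good W V sh m X := by
  intro hX x hx p hp hneg
  have key : ∀ t < size sh, (((if wgt wb s 0 = 0 then 1 else 0 : ℕ) : ℝ)) ≤
      ∑ j ∈ range m, (wgt wb s j : ℝ) * co W V X (j * size sh + t) := by
    intro t ht
    have h1 := leaf_lanes hV1 hV hX h t ht
    rw [wsum_eq] at h1
    have h2 : ((∑ j ∈ range m, (wgt wb s j : ℝ)) * 2 ^ (V - 1) +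
        (((if wgt wb s 0 = 0 then 1 else 0 : ℕ) : ℝ))) ≤
        ∑ j ∈ range m, (wgt wb s j : ℝ) * (lane W X (j * size sh + t) : ℝ) := by
      exact_mod_cast h1
    have h3 : ∑ j ∈ range m, (wgt wb s j : ℝ) * co W V X (j * size sh + t) =
        ∑ j ∈ range m, (wgt wb s j : ℝ) * (lane W X (j * size sh + t) : ℝ) -
          (∑ j ∈ range m, (wgt wb s j : ℝ)) * 2 ^ (V - 1) := by
      rw [sum_mul, ← sum_sub_distrib]
      exact sum_congr rfl fun j _ => by unfold co; ring
    rw [h3]; linarith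
  have h1 : (((if wgt wb s 0 = 0 then 1 else 0 : ℕ) : ℝ)) ≤
      ∑ j ∈ range m, (wgt wb s j : ℝ) * ev sh 0 x (co W V X) (j * size sh) := by
    calc (((if wgt wb s 0 = 0 then 1 else 0 : ℕ) : ℝ))
        = ev sh 0 x (fun _ => (((if wgt wb s 0 = 0 then 1 else 0 : ℕ) : ℝ))) 0 :=
          (ev_const x sh 0 0 _).symm
      _ ≤ ev sh 0 x (fun t => ∑ j ∈ range m, (wgt wb s j : ℝ) * co W V X (j * size sh + t)) 0 :=
          ev_mono hx sh 0 fun t ht => by simpa using key t ht
      _ = ∑ j ∈ range m, ev sh 0 x (fun t => (wgt wb s j : ℝ) * co W V X (j * size sh + t)) 0 :=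
          ev_sum (range m) x sh 0 0 (fun j t => (wgt wb s j : ℝ) * co W V X (j * size sh + t))
      _ = _ := sum_congr rfl fun j _ => by
          rw [ev_mul x sh 0 0 _ (fun t => co W V X (j * size sh + t)), ← ev_shift]
  have h2 : ∑ j ∈ range m, (wgt wb s j : ℝ) * ev sh 0 x (co W V X) (j * size sh) ≤
      (wgt wb s 0 : ℝ) * p 0 := by
    obtain ⟨m', rfl⟩ : ∃ m', m = m' + 1 := ⟨m - 1, by omega⟩
    calc ∑ j ∈ range (m' + 1), (wgt wb s j : ℝ) * ev sh 0 x (co W V X) (j * size sh)
        ≤ ∑ j ∈ range (m' + 1), (wgt wb s j : ℝ) * p j :=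
          sum_le_sum fun j hj => mul_le_mul_of_nonneg_left (hp j (mem_range.1 hj)) (Nat.cast_nonneg _)
      _ = ∑ j ∈ range m', (wgt wb s (j + 1) : ℝ) * p (j + 1) + (wgt wb s 0 : ℝ) * p 0 :=
          sum_range_succ' _ _
      _ ≤ _ := by
          have : ∑ j ∈ range m', (wgt wb s (j + 1) : ℝ) * p (j + 1) ≤ 0 :=
            sum_nonpos fun j hj => mul_nonpos_of_nonneg_of_nonpos (Nat.cast_nonneg _)
              (hneg (j + 1) (by omega) (by have := mem_range.1 hj; omega))
          linarith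
  have h3 := h1.trans h2
  by_cases h0 : wgt wb s 0 = 0
  · rw [if_pos h0, h0] at h3
    norm_num at h3
  · rw [if_neg h0] at h3
    have hp0 : (0 : ℝ) < (wgt wb s 0 : ℝ) := by exact_mod_cast Nat.pos_of_ne_zero h0
    have h4 : (0 : ℝ) ≤ (wgt wb s 0 : ℝ) * p 0 := by simpa using h3
    exact nonneg_of_mul_nonneg_right h4 hp0 |> fun h => h

end Crest.Agent.Bern
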