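import Crest.Agent.Lib.Bern.CastAt
import Crest.Agent.Lib.Bern.Leaf

/-! # Lib/Bern/Go : the search tree (helper prefix `go_`). -/

set_option autoImplicit false

namespace Crest.Agent.Bern

open Finset

theorem go_succ (W V : ℕ) (sh : List ℕ) (m wb fuel X s : ℕ) :
    go W V sh m wb (fuel + 1) X s = @Bool.rec (fun _ => ℕ)
      (castAt W (half W (m * size sh)) X
        (fun L R => @Bool.rec (fun _ => ℕ) 0
          (@Nat.rec (fun _ => ℕ) 0 (fun s1 _ => go W V sh m wb fuel R s1) (go W V sh m wb fuel L (Nat.shiftRight s 4)))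
          (Nat.ble 1 L)) sh m (Nat.land s 15))
      (@Bool.rec (fun _ => ℕ) 0 (Nat.succ (Nat.shiftRight s (Nat.add 4 (Nat.mul m wb))))
        (leaf W V (size sh) m wb (Nat.shiftRight s 4) X))
      (Nat.beq (Nat.land s 15) 15) := rfl

theorem good_of_go_ne {W V m wb : ℕ} {sh : List ℕ} (hV1 : 1 ≤ V) (hV : V + 1 ≤ W) (hm : 1 ≤ m) (fuel : ℕ) :
    ∀ X s, go W V sh m wb fuel X s ≠ 0 → Good W V sh m X := by
  induction fuel with
  | zero => intro X s h; exact absurd rfl h
  | succ fuel ih =>
    intro X s h
    rw [go_succ] at h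
    cases hb : Nat.beq (Nat.land s 15) 15 with
    | true =>
      rw [hb] at h
      cases hl : leaf W V (size sh) m wb (Nat.shiftRight s 4) X with
      | true => exact good_of_leaf hV1 hV hm hl
      | false => rw [hl] at h; exact absurd rfl h
    | false =>
      rw [hb] at h
      by_cases ha : Nat.land s 15 < sh.length
      · refine good_of_children hV sh m _ ha ?_
        intro L R hk _
        have h1 := h
        simp only [] at h1
        rw [hk] at h1
        cases hc : Nat.ble 1 L with
        | false => rw [hc] at h1; exact absurd rfl h1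
        | true =>
          rw [hc] at h1
          cases hg : go W V sh m wb fuel L (Nat.shiftRight s 4) with
          | zero => rw [hg] at h1; exact absurd rfl h1
          | succ s1 =>
            rw [hg] at h1
            exact ⟨ih L _ (by rw [hg]; exact Nat.succ_ne_zero _), ih R s1 h1⟩
      · exact absurd (castAt_of_le _ _ _ _ _ _ _ (not_lt.mp ha)) h

theorem good_of_go {W V m wb : ℕ} {sh : List ℕ} (hV1 : 1 ≤ V) (hV : V + 1 ≤ W) (hm : 1 ≤ m) (fuel X s : ℕ)
    (h : Nat.beq (go W V sh m wb fuel X s) 1 = true) : Good W V sh m X :=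
  good_of_go_ne hV1 hV hm fuel X s (by rw [Nat.eq_of_beq_eq_true h]; exact one_ne_zero)

end Crest.Agent.Bern
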