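import Crest.Agent.Lib.Bern.Lane

/-! # Lib/Bern/Lane2 : lane arithmetic (helper prefix `l2_`). -/

set_option autoImplicit false

namespace Crest.Agent.Bern

open Finset

theorem l2_sum_lt (W n : ℕ) (c : ℕ → ℕ) (hc : ∀ t < n, c t < 2 ^ W) :
    ∑ t ∈ range n, c t * 2 ^ (W * t) < 2 ^ (n * W) := by
  induction n with
  | zero => simp
  | succ n ih =>
    have h1 := ih fun t ht => hc t (by omega)
    have h2 : c n + 1 ≤ 2 ^ W := hc n (by omega)
    rw [sum_range_succ, Nat.succ_mul, pow_add, mul_comm W n]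
    have h3 := Nat.mul_le_mul_left (2 ^ (n * W)) h2
    nlinarith

theorem l2_lane_succ (W c N t : ℕ) (hc : c < 2 ^ W) : lane W (c + 2 ^ W * N) (t + 1) = lane W N t := by
  have h : (c + 2 ^ W * N) / 2 ^ W = N := by
    rw [Nat.add_mul_div_left _ _ (by positivity), Nat.div_eq_of_lt hc, zero_add]
  unfold lane
  rw [mul_add, mul_one, add_comm (W * t) W, pow_add, ← Nat.div_div_eq_div_mul, h]

theorem l2_lane_zero (W c N : ℕ) (hc : c < 2 ^ W) : lane W (c + 2 ^ W * N) 0 = c := by
  unfold lane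
  rw [mul_zero, pow_zero, Nat.div_one, Nat.add_mul_mod_self_left, Nat.mod_eq_of_lt hc]

theorem l2_big {W : ℕ} (hW : 1 ≤ W) (A n : ℕ) (h : A ≤ n) : A < 2 ^ (n * W) :=
  lt_of_lt_of_le Nat.lt_two_pow_self (Nat.pow_le_pow_right (by norm_num) (by nlinarith))

/-- digits of a sum.  Induction on `n` (`sum_range_succ'` and `lane W (c + 2^W * N) (t+1) = lane W N t`), or
`sum_range_succ` with the bound `∑_{t<n} < 2^(n W)`. -/
theorem lane_sum (W n : ℕ) (c : ℕ → ℕ) (hc : ∀ t < n, c t < 2 ^ W) (u : ℕ) :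
    lane W (∑ t ∈ range n, c t * 2 ^ (W * t)) u = if u < n then c u else 0 := by
  induction n generalizing c u with
  | zero => simp [lane_zero]
  | succ n ih =>
    have e : ∑ t ∈ range (n + 1), c t * 2 ^ (W * t) =
        c 0 + 2 ^ W * ∑ t ∈ range n, c (t + 1) * 2 ^ (W * t) := by
      rw [sum_range_succ', mul_sum, add_comm]
      congr 1
      · simp
      · exact sum_congr rfl fun t _ => by ring
    rw [e]
    cases u with
    | zero => rw [l2_lane_zero _ _ _ (hc 0 (by omega)), if_pos (by omega)]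
    | succ u =>
      rw [l2_lane_succ _ _ _ _ (hc 0 (by omega)), ih (fun t => c (t + 1)) (fun t ht => hc _ (by omega))]
      simp only [Nat.add_lt_add_iff_right]

theorem sum_lt_two_pow (W n : ℕ) (c : ℕ → ℕ) (hc : ∀ t < n, c t < 2 ^ W) :
    ∑ t ∈ range n, c t * 2 ^ (W * t) < 2 ^ (n * W) := by
  exact l2_sum_lt W n c hc

theorem eq_sum_lane {W N n : ℕ} (h : N < 2 ^ (n * W)) :
    N = ∑ t ∈ range n, lane W N t * 2 ^ (W * t) := by
  rcases Nat.eq_zero_or_pos W with rfl | hW
  · have : N = 0 := by simpa using h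
    subst this
    simp [lane_zero]
  · refine eq_of_lane hW fun t => ?_
    rw [lane_sum W n _ fun t _ => lane_lt W N t]
    split_ifs with ht
    · rfl
    · exact lane_eq_zero_of_lt h (by omega)

/-- no carries.  (`W = 0` is trivial.)  Write `A`, `B` with `eq_sum_lane` for a large `n`, then `lane_sum`. -/
theorem lane_add {W A B : ℕ} (h : ∀ t, lane W A t + lane W B t < 2 ^ W) (t : ℕ) :
    lane W (A + B) t = lane W A t + lane W B t := by
  rcases Nat.eq_zero_or_pos W with rfl | hW
  · simp [lane, Nat.mod_one]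
  · have hA := eq_sum_lane (l2_big hW A (A + B + t + 1) (by omega))
    have hB := eq_sum_lane (l2_big hW B (A + B + t + 1) (by omega))
    have e : A + B = ∑ u ∈ range (A + B + t + 1), (lane W A u + lane W B u) * 2 ^ (W * u) := by
      simp only [add_mul, sum_add_distrib]
      rw [← hA, ← hB]
    have h2 := lane_sum W (A + B + t + 1) (fun u => lane W A u + lane W B u) (fun u _ => h u) t
    rw [← e, if_pos (by omega)] at h2
    exact h2

theorem lane_mul {W c A : ℕ} (h : ∀ t, c * lane W A t < 2 ^ W) (t : ℕ) :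
    lane W (c * A) t = c * lane W A t := by
  rcases Nat.eq_zero_or_pos W with rfl | hW
  · simp [lane, Nat.mod_one]
  · have hA := eq_sum_lane (l2_big hW A (A + t + 1) (by omega))
    have e : c * A = ∑ u ∈ range (A + t + 1), (c * lane W A u) * 2 ^ (W * u) := by
      simp only [mul_assoc, ← mul_sum]
      rw [← hA]
    have h2 := lane_sum W (A + t + 1) (fun u => c * lane W A u) (fun u _ => h u) t
    rw [← e, if_pos (by omega)] at h2
    exact h2

/-- `Nat.geomSum_eq` -/
theorem ones_eq {W : ℕ} (hW : 1 ≤ W) (n : ℕ) : ones W n = ∑ t ∈ range n, 2 ^ (W * t) := by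
  have h2 : 2 ≤ 2 ^ W := by
    calc 2 = 2 ^ 1 := rfl
      _ ≤ 2 ^ W := Nat.pow_le_pow_right (by norm_num) hW
  have h := Nat.geomSum_eq h2 n
  simp only [← pow_mul] at h
  rw [h]
  show (1 <<< (W * n) - 1) / (1 <<< W - 1) = _
  simp only [Nat.shiftLeft_eq, one_mul]

theorem lane_mul_ones {W c : ℕ} (hW : 1 ≤ W) (hc : c < 2 ^ W) (n t : ℕ) :
    lane W (c * ones W n) t = if t < n then c else 0 := by
  rw [ones_eq hW, mul_sum]
  exact lane_sum W n (fun _ => c) (fun _ _ => hc) t

theorem lane_half {W : ℕ} (hW : 1 ≤ W) (n t : ℕ) :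
    lane W (half W n) t = if t < n then 2 ^ (W - 1) - 1 else 0 := by
  have h : half W n = (2 ^ (W - 1) - 1) * ones W n := by
    show full (W - 1) * ones W n = _
    rw [full_eq]
  have h2 : 2 ^ (W - 1) ≤ 2 ^ W := Nat.pow_le_pow_right (by norm_num) (by omega)
  have h3 : 0 < 2 ^ (W - 1) := by positivity
  rw [h, lane_mul_ones hW (by omega)]

/-- `lane_land`, `lane_half`, `lane_shiftRight_one`, `lane_add`, `lane_shiftRight` -/
theorem lane_avg {W V X : ℕ} (hV : V + 1 ≤ W) (hX : Bd W V X) (s n t : ℕ) :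
    lane W (avg (s * W) (half W n) X) t = if t < n then (lane W X t + lane W X (t + s)) / 2 else 0 := by
  have hW : 1 ≤ W := by omega
  have h2 : 2 * 2 ^ V ≤ 2 ^ W := by
    rw [← pow_succ']
    exact Nat.pow_le_pow_right (by norm_num) hV
  show lane W (((X + X >>> (s * W)) >>> 1) &&& half W n) t = _
  rw [lane_land, lane_half hW]
  split_ifs with ht
  · rw [lane_shiftRight_one hW, lane_add, lane_shiftRight]
    intro u
    rw [lane_shiftRight]
    have h3 := hX u
    have h4 := hX (u + s)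
    omega
  · simp

theorem bd_avg {W V X : ℕ} (hV : V + 1 ≤ W) (hX : Bd W V X) (s n : ℕ) :
    Bd W V (avg (s * W) (half W n) X) := by
  intro t
  rw [lane_avg hV hX]
  have h3 := hX t
  have h4 := hX (t + s)
  split_ifs
  · omega
  · positivity

/-- write `t = (t / U) U + t % U` with `U = (d+1) s`; `lane_lane` with wide lanes `U * W`, `lane_mul_ones`, `lane_full`;
`t / s % (d+1) = 0 ↔ t % U < s` (`Nat.mod_mul_right_div_self`-type lemma) -/
theorem lane_mask0 {W s : ℕ} (hW : 1 ≤ W) (hs : 0 < s) (d q t : ℕ) :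
    lane W (mask0 W d s q) t =
      if t / s % (d + 1) = 0 ∧ t < q * ((d + 1) * s) then 2 ^ W - 1 else 0 := by
  have hU : 0 < (d + 1) * s := by positivity
  have e : mask0 W d s q = full (s * W) * ones ((d + 1) * s * W) q := rfl
  have hUW : 1 ≤ (d + 1) * s * W := Nat.mul_pos hU hW
  have hle : 2 ^ (s * W) ≤ 2 ^ ((d + 1) * s * W) :=
    Nat.pow_le_pow_right (by norm_num) (Nat.mul_le_mul_right _ (by nlinarith))
  have hp : 0 < 2 ^ (s * W) := by positivity
  have hf : full (s * W) < 2 ^ ((d + 1) * s * W) := by rw [full_eq]; omega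
  have h1 := lane_lane W ((d + 1) * s) (mask0 W d s q) (t / ((d + 1) * s)) (t % ((d + 1) * s))
  rw [if_pos (Nat.mod_lt _ hU), Nat.div_add_mod'] at h1
  rw [← h1, e, lane_mul_ones hUW hf]
  have h2 : t / s % (d + 1) = 0 ↔ t % ((d + 1) * s) < s := by
    rw [← Nat.mod_mul_left_div_self, Nat.div_eq_zero_iff]
    omega
  have h3 : t / ((d + 1) * s) < q ↔ t < q * ((d + 1) * s) := Nat.div_lt_iff_lt_mul hU
  by_cases hq : t / ((d + 1) * s) < q
  · rw [if_pos hq, lane_full]
    simp only [h2, h3.1 hq, and_true]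
  · rw [if_neg hq, lane_zero, if_neg fun h => hq (h3.2 h.2)]

theorem bd_of_bdTest {W V n X : ℕ} (hV : V + 1 ≤ W) (h : bdTest W V n X = true) : Bd W V X := by
  have hW : 1 ≤ W := by omega
  have e : X &&& (full V * ones W n) = X := Nat.eq_of_beq_eq_true h
  have hle : 2 ^ V ≤ 2 ^ W := Nat.pow_le_pow_right (by norm_num) (by omega)
  have hp : 0 < 2 ^ V := by positivity
  intro t
  rw [← e, lane_land, full_eq, lane_mul_ones hW (by omega)]
  refine lt_of_le_of_lt Nat.and_le_right ?_
  split_ifs <;> omega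

end Crest.Agent.Bern
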