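import Crest.Agent.Lib.Bern.Rep
import Crest.Agent.Lib.Bern.Lane2
import Crest.Agent.Lib.Bern.Ev

/-! # Lib/Bern/Kron : Kronecker substitution (helper prefix `kr_`). -/

set_option autoImplicit false

namespace Crest.Agent.Bern

open Finset

/-- linear index of a multi-index -/
def idx : List ℕ → (ℕ → ℕ) → ℕ
  | [], _ => 0
  | _ :: r, μ => μ 0 * size r + idx r (fun j => μ (j + 1))

theorem idx_lt (sh : List ℕ) (μ : ℕ → ℕ) (h : ∀ j < sh.length, μ j ≤ sh.getD j 0) : idx sh μ < size sh := by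
  induction sh generalizing μ with
  | nil => simp [idx, size]
  | cons d r ih =>
    have h0 : μ 0 ≤ d := by simpa using h 0 (by simp)
    have h1 := ih (fun j => μ (j + 1)) (fun j hj => by simpa using h (j + 1) (by simpa using hj))
    show μ 0 * size r + idx r (fun j => μ (j + 1)) < (d + 1) * size r
    have h2 : μ 0 * size r ≤ d * size r := Nat.mul_le_mul_right _ h0
    rw [Nat.add_mul, Nat.one_mul]
    omega

/-- `Finset.sum_range_succ'`; `stride (d :: r) 0 = size r`, `stride (d :: r) (j+1) = stride r j` by `rfl` -/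
theorem idx_eq (sh : List ℕ) (μ : ℕ → ℕ) : idx sh μ = ∑ j ∈ range sh.length, μ j * stride sh j := by
  induction sh generalizing μ with
  | nil => simp [idx]
  | cons d r ih =>
    show μ 0 * size r + idx r (fun j => μ (j + 1)) =
      ∑ j ∈ range (r.length + 1), μ j * stride (d :: r) j
    rw [Finset.sum_range_succ', ih]
    show _ = ∑ j ∈ range r.length, μ (j + 1) * stride r j + μ 0 * size r
    ring

theorem cb_pos (sh : List ℕ) (t : ℕ) (ht : t < size sh) : 0 < cb sh t := by
  induction sh generalizing t with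
  | nil => simp [cb]
  | cons d r ih =>
    show 0 < d.choose (t / size r) * cb r (t % size r)
    refine Nat.mul_pos (Nat.choose_pos ?_) (ih _ (Nat.mod_lt _ (size_pos r)))
    refine Nat.lt_succ_iff.1 (Nat.div_lt_of_lt_mul ?_)
    rw [Nat.mul_comm]
    exact ht

/-- induction on `sh` generalizing `j`, `b`, `μ`, `c`: only the term `i = μ 0` survives (the other terms vanish by `ev_congr` and
`ev_const`), `cb (d :: r) (idx …) = d.choose (μ 0) * cb r (idx r …)`; `Finset.prod_range_succ'`. -/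
theorem ev_single (sh : List ℕ) (μ : ℕ → ℕ) (h : ∀ j < sh.length, μ j ≤ sh.getD j 0) (x : ℕ → ℝ) (j b : ℕ) (c : ℝ) :
    ev sh j x (fun t => if t = b + idx sh μ then c / (cb sh (idx sh μ) : ℝ) else 0) b =
      c * ∏ l ∈ range sh.length, (x (j + l) ^ μ l * (1 - x (j + l)) ^ (sh.getD l 0 - μ l)) := by
  induction sh generalizing μ j b c with
  | nil => simp [ev, idx, cb]
  | cons d r ih =>
    have h0 : μ 0 ≤ d := by simpa using h 0 (by simp)
    have h1 : ∀ j < r.length, (fun j => μ (j + 1)) j ≤ r.getD j 0 :=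
      fun j hj => by simpa using h (j + 1) (by simpa using hj)
    have hI := idx_lt r _ h1
    have hs := size_pos r
    have hidx : idx (d :: r) μ = μ 0 * size r + idx r (fun j => μ (j + 1)) := rfl
    have hcb : cb (d :: r) (idx (d :: r) μ) =
        d.choose (μ 0) * cb r (idx r (fun j => μ (j + 1))) := by
      show d.choose (idx (d :: r) μ / size r) * cb r (idx (d :: r) μ % size r) = _
      rw [hidx, Nat.add_comm, Nat.add_mul_div_right _ _ hs, Nat.add_mul_mod_self_right,
        Nat.div_eq_of_lt hI, Nat.mod_eq_of_lt hI, Nat.zero_add]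
    have hch : (d.choose (μ 0) : ℝ) ≠ 0 := by
      exact_mod_cast (Nat.choose_pos h0).ne'
    show ∑ i ∈ range (d + 1), bern d i (x j) * ev r (j + 1) x _ (b + i * size r) =
      c * ∏ l ∈ range (r.length + 1), _
    rw [Finset.sum_eq_single (μ 0), Finset.prod_range_succ']
    · have e1 : ev r (j + 1) x (fun t => if t = b + idx (d :: r) μ then
            c / (cb (d :: r) (idx (d :: r) μ) : ℝ) else 0) (b + μ 0 * size r) =
          ev r (j + 1) x (fun t => if t = (b + μ 0 * size r) + idx r (fun j => μ (j + 1)) then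
            (c / (d.choose (μ 0) : ℝ)) / (cb r (idx r (fun j => μ (j + 1))) : ℝ) else 0)
            (b + μ 0 * size r) := by
        congr 1
        funext t
        rw [hcb, hidx, Nat.add_assoc, div_div]
        push_cast
        rfl
      rw [e1, ih _ h1]
      have e2 : ∏ l ∈ range r.length, (x (j + (l + 1)) ^ μ (l + 1) *
            (1 - x (j + (l + 1))) ^ ((d :: r).getD (l + 1) 0 - μ (l + 1))) =
          ∏ l ∈ range r.length, (x (j + 1 + l) ^ μ (l + 1) *
            (1 - x (j + 1 + l)) ^ (r.getD l 0 - μ (l + 1))) := by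
        refine Finset.prod_congr rfl (fun l _ => ?_)
        rw [show j + (l + 1) = j + 1 + l by ring, List.getD_cons_succ]
      rw [e2, List.getD_cons_zero, show x (j + 0) = x j from rfl]
      unfold bern
      field_simp
    · intro i _ hi
      have e1 : ev r (j + 1) x (fun t => if t = b + idx (d :: r) μ then
            c / (cb (d :: r) (idx (d :: r) μ) : ℝ) else 0) (b + i * size r) =
          ev r (j + 1) x (fun _ => (0 : ℝ)) 0 := by
        refine ev_congr x r (j + 1) (fun t ht => ?_)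
        rw [if_neg]
        intro he
        apply hi
        rw [hidx] at he
        have h3 : t + i * size r = idx r (fun j => μ (j + 1)) + μ 0 * size r := by omega
        have h4 := congrArg (· / size r) h3
        rw [Nat.add_mul_div_right _ _ hs, Nat.add_mul_div_right _ _ hs, Nat.div_eq_of_lt hI,
          Nat.div_eq_of_lt ht] at h4
        omega
      rw [e1, ev_const, mul_zero]
    · intro hn
      exact absurd (Finset.mem_range.2 (Nat.lt_succ_of_le h0)) hn

theorem kr_natAbs_sum {ι : Type} (s : Finset ι) (a : ι → ℤ) :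
    (∑ i ∈ s, a i).natAbs ≤ ∑ i ∈ s, (a i).natAbs := by
  classical
  induction s using Finset.induction_on with
  | empty => simp
  | insert i s hi ih =>
    rw [Finset.sum_insert hi, Finset.sum_insert hi]
    exact (Int.natAbs_add_le _ _).trans (Nat.add_le_add_left ih _)

theorem kr_kpt (W0 : ℕ) (sh : List ℕ) (j : ℕ) : kpt W0 sh j = 2 ^ (W0 * stride sh j) :=
  Nat.one_shiftLeft _

theorem kr_degOk (sh : List ℕ) (e : PE) (k : ℕ) (h : degOk sh e k = true) :
    ∀ j < k, e.deg j ≤ sh.getD j 0 := by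
  induction k with
  | zero => intro j hj; omega
  | succ k ih =>
    have h' : (degOk sh e k && Nat.ble (e.deg k) (sh.getD k 0)) = true := h
    rw [Bool.and_eq_true] at h'
    intro j hj
    rcases Nat.lt_succ_iff_lt_or_eq.1 hj with h1 | h1
    · exact ih h'.1 j h1
    · rw [h1]; exact Nat.le_of_ble_eq_true h'.2

/-- collect the terms: `A t = ∑_{i ∈ s, idx (μ i) = t} a i` (`Finset.sum_fiberwise_of_maps_to`), `kpt W0 sh j = 2^(W0 * stride sh j)` -/
theorem rep_collect {W0 : ℕ} {sh : List ℕ} {N : ℕ} {K : ℤ} {f : (ℕ → ℝ) → ℝ}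
    (h : Rep sh.length (kpt W0 sh) (fun j => sh.getD j 0) N K f) :
    ∃ A : ℕ → ℤ, (∀ t, (A t).natAbs ≤ N) ∧ K = ∑ t ∈ range (size sh), A t * 2 ^ (W0 * t) ∧
      ∀ x, f x = ev sh 0 x (fun t => (A t : ℝ) / (cb sh t : ℝ)) 0 := by
  classical
  obtain ⟨ι, s, a, μ, hμ, hN, hK, hf⟩ := h
  refine ⟨fun t => ∑ i ∈ s.filter (fun i => idx sh (μ i) = t), a i, fun t => ?_, ?_, fun x => ?_⟩
  · refine (kr_natAbs_sum _ _).trans (le_trans ?_ hN)
    exact Finset.sum_le_sum_of_subset (Finset.filter_subset _ _)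
  · rw [hK, ← Finset.sum_fiberwise_of_maps_to (g := fun i => idx sh (μ i)) (t := range (size sh))
      (fun i hi => Finset.mem_range.2 (idx_lt sh _ (hμ i hi)))]
    refine Finset.sum_congr rfl (fun t _ => ?_)
    rw [Finset.sum_mul]
    refine Finset.sum_congr rfl (fun i hi => ?_)
    rw [← (Finset.mem_filter.1 hi).2, idx_eq, Finset.mul_sum, ← Finset.prod_pow_eq_pow_sum]
    congr 1
    refine Finset.prod_congr rfl (fun j _ => ?_)
    rw [kr_kpt]
    push_cast
    rw [← pow_mul]
    congr 1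
    ring
  · have e1 : (fun t => ((∑ i ∈ s.filter (fun i => idx sh (μ i) = t), a i : ℤ) : ℝ) / (cb sh t : ℝ)) =
        fun t => ∑ i ∈ s, (if t = 0 + idx sh (μ i) then
          (a i : ℝ) / (cb sh (idx sh (μ i)) : ℝ) else 0) := by
      funext t
      push_cast
      rw [Finset.sum_div, Finset.sum_filter]
      refine Finset.sum_congr rfl (fun i _ => ?_)
      rw [Nat.zero_add]
      by_cases ht : idx sh (μ i) = t
      · rw [if_pos ht, if_pos ht.symm, ht]
      · rw [if_neg ht, if_neg (fun h => ht h.symm)]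
    rw [e1, ev_sum, hf]
    refine Finset.sum_congr rfl (fun i hi => ?_)
    rw [ev_single sh (μ i) (hμ i hi)]
    simp only [Nat.zero_add]

/-- `rep_hom`, `rep_elev`, `Rep.mul`, `Rep.congr` (`degOk` gives `deg j ≤ sh.getD j 0`), `rep_collect`; then
`kron = ∑_t (A t + 2^(W0-1)).toNat * 2^(W0 t)` by `ones_eq`, and `lane_sum`, `sum_lt_two_pow`. -/
theorem kron_spec {W0 : ℕ} {sh : List ℕ} {e : PE} (hW : 1 ≤ W0) (h : kronOk W0 sh e = true) :
    ∃ A : ℕ → ℤ, (∀ t < size sh, (lane W0 (kron W0 sh e) t : ℤ) = A t + 2 ^ (W0 - 1)) ∧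
      kron W0 sh e < 2 ^ (size sh * W0) ∧
      ∀ x, e.eval x = ev sh 0 x (fun t => (A t : ℝ) / (cb sh t : ℝ)) 0 := by
  unfold kronOk at h
  simp only [Bool.and_eq_true] at h
  obtain ⟨⟨hwf, hdeg⟩, hN⟩ := h
  have hN' := Nat.le_of_ble_eq_true hN
  have hN2 : e.nrm sh.length * elev (fun _ => 1) (fun j => sh.getD j 0 - e.deg j) sh.length + 1
      ≤ 2 ^ (W0 - 1) := by
    have e1 : Nat.shiftLeft 1 (Nat.sub W0 1) = 2 ^ (W0 - 1) := Nat.one_shiftLeft _
    rw [← e1]
    exact hN'
  have hd := kr_degOk sh e sh.length hdeg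
  have hR := ((rep_hom (y := kpt W0 sh) e hwf).mul
    (rep_elev (k := sh.length) (y := kpt W0 sh) (fun j => sh.getD j 0 - e.deg j))).congr
    (δ' := fun j => sh.getD j 0) (f' := fun x => e.eval x)
    (fun j hj => by have := hd j hj; omega) le_rfl rfl (fun x => mul_one _)
  obtain ⟨A, hA, hK, hf⟩ := rep_collect hR
  have hA' : ∀ t, (A t).natAbs < 2 ^ (W0 - 1) := fun t => by have := hA t; omega
  have h2W : 2 ^ W0 = 2 * 2 ^ (W0 - 1) := by
    rw [← pow_succ']
    congr 1
    omega
  have hP : (((2 : ℕ) ^ (W0 - 1) : ℕ) : ℤ) = 2 ^ (W0 - 1) := by push_cast; rfl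
  have hnn : ∀ t, 0 ≤ A t + 2 ^ (W0 - 1) := fun t => by
    have := hA' t
    rw [← hP]; omega
  have hc : ∀ t, (((A t + 2 ^ (W0 - 1)).toNat : ℕ) : ℤ) = A t + 2 ^ (W0 - 1) :=
    fun t => Int.toNat_of_nonneg (hnn t)
  have hlt : ∀ t < size sh, (A t + 2 ^ (W0 - 1)).toNat < 2 ^ W0 := fun t _ => by
    have h1 := hA' t
    have h2 := hc t
    rw [← hP] at h2 ⊢
    omega
  have hk : kron W0 sh e = ∑ t ∈ range (size sh), (A t + 2 ^ (W0 - 1)).toNat * 2 ^ (W0 * t) := by
    have e1 : kron W0 sh e = Int.toNat (e.hom (kpt W0 sh) sh.length *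
        ((elev (kpt W0 sh) (fun j => sh.getD j 0 - e.deg j) sh.length : ℕ) : ℤ) +
        ((ones W0 (size sh) <<< (W0 - 1) : ℕ) : ℤ)) := rfl
    rw [e1, hK, Nat.shiftLeft_eq, ones_eq hW]
    have e2 : ∑ t ∈ range (size sh), A t * 2 ^ (W0 * t) +
        (((∑ t ∈ range (size sh), 2 ^ (W0 * t)) * 2 ^ (W0 - 1) : ℕ) : ℤ) =
        ((∑ t ∈ range (size sh), (A t + 2 ^ (W0 - 1)).toNat * 2 ^ (W0 * t) : ℕ) : ℤ) := by
      rw [Nat.cast_mul, Nat.cast_sum, Nat.cast_sum, Finset.sum_mul, ← Finset.sum_add_distrib]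
      refine Finset.sum_congr rfl (fun t _ => ?_)
      rw [Nat.cast_mul, hc]
      push_cast
      ring
    rw [e2, Int.toNat_natCast]
  refine ⟨A, fun t ht => ?_, ?_, hf⟩
  · rw [hk, lane_sum W0 _ _ hlt, if_pos ht, hc]
  · rw [hk]
    exact sum_lt_two_pow W0 _ _ hlt

end Crest.Agent.Bern
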