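import Crest.Agent.Lib.Bern.Defs

/-! # Lib/Bern/Lane : basic lane lemmas, part 1 (helper prefix `ln_`).  Tool: `Nat.eq_of_testBit_eq` and `testBit_lane`. -/

set_option autoImplicit false

namespace Crest.Agent.Bern

open Finset

theorem lane_lt (W N t : ℕ) : lane W N t < 2 ^ W := Nat.mod_lt _ (by positivity)

/-- `Nat.testBit_mod_two_pow`, `Nat.testBit_div_two_pow` -/
theorem testBit_lane (W N t i : ℕ) :
    (lane W N t).testBit i = (decide (i < W) && N.testBit (W * t + i)) := by
  rw [lane, Nat.testBit_mod_two_pow, Nat.testBit_div_two_pow, Nat.add_comm i]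

theorem lane_zero (W t : ℕ) : lane W 0 t = 0 := by
  simp [lane]

theorem lane_land (W A B t : ℕ) : lane W (A &&& B) t = lane W A t &&& lane W B t := by
  refine Nat.eq_of_testBit_eq fun i => ?_
  simp only [testBit_lane, Nat.testBit_and]
  cases decide (i < W) <;> simp

theorem lane_lor (W A B t : ℕ) : lane W (A ||| B) t = lane W A t ||| lane W B t := by
  refine Nat.eq_of_testBit_eq fun i => ?_
  simp only [testBit_lane, Nat.testBit_or]
  cases decide (i < W) <;> simp

theorem lane_shiftRight (W N s t : ℕ) : lane W (N >>> (s * W)) t = lane W N (t + s) := by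
  refine Nat.eq_of_testBit_eq fun i => ?_
  simp only [testBit_lane, Nat.testBit_shiftRight]
  congr 2
  ring

theorem lane_shiftLeft (W N s t : ℕ) :
    lane W (N <<< (s * W)) t = if t < s then 0 else lane W N (t - s) := by
  refine Nat.eq_of_testBit_eq fun i => ?_
  split_ifs with h
  · rw [testBit_lane, Nat.testBit_shiftLeft, Nat.zero_testBit]
    by_cases hi : i < W
    · have h1 : W * t + i < s * W := by nlinarith
      simp [not_le.2 h1]
    · simp [hi]
  · obtain ⟨k, rfl⟩ := Nat.exists_eq_add_of_le (not_lt.1 h)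
    rw [testBit_lane, testBit_lane, Nat.testBit_shiftLeft, Nat.add_sub_cancel_left]
    have h1 : W * (s + k) + i = s * W + (W * k + i) := by ring
    rw [h1, Nat.add_sub_cancel_left]
    simp

theorem full_eq (n : ℕ) : full n = 2 ^ n - 1 := by
  show 1 <<< n - 1 = _
  rw [Nat.one_shiftLeft]

theorem lane_full (W n t : ℕ) : lane W (full (n * W)) t = if t < n then 2 ^ W - 1 else 0 := by
  refine Nat.eq_of_testBit_eq fun i => ?_
  rw [testBit_lane, full_eq, Nat.testBit_two_pow_sub_one]
  split_ifs with h
  · rw [Nat.testBit_two_pow_sub_one]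
    by_cases hi : i < W
    · have h1 : W * t + i < n * W := by nlinarith
      simp [hi, h1]
    · simp [hi]
  · have h1 : ¬ W * t + i < n * W := by
      have := Nat.mul_le_mul_left W (not_lt.1 h)
      rw [Nat.mul_comm n W]; omega
    simp [h1]

theorem lane_and_full (W N t : ℕ) : lane W N t &&& (2 ^ W - 1) = lane W N t := by
  rw [Nat.and_two_pow_sub_one_eq_mod, Nat.mod_eq_of_lt (lane_lt W N t)]

/-- lanes of a wide lane -/
theorem lane_lane (W s N q r : ℕ) :
    lane W (lane (s * W) N q) r = if r < s then lane W N (q * s + r) else 0 := by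
  refine Nat.eq_of_testBit_eq fun i => ?_
  rw [testBit_lane, testBit_lane]
  split_ifs with h
  · rw [testBit_lane]
    have h2 : s * W * q + (W * r + i) = W * (q * s + r) + i := by ring
    rw [h2]
    by_cases hi : i < W
    · have h1 : W * r + i < s * W := by nlinarith
      simp [hi, h1]
    · simp [hi]
  · have h1 : ¬ W * r + i < s * W := by
      have := Nat.mul_le_mul_left W (not_lt.1 h)
      rw [Nat.mul_comm s W]; omega
    simp [h1]

/-- the kernel form of a wide lane -/
theorem land_shiftRight_full (U N q : ℕ) : (N >>> (q * U)) &&& full U = lane U N q := by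
  rw [full_eq, Nat.and_two_pow_sub_one_eq_mod, Nat.shiftRight_eq_div_pow, lane, Nat.mul_comm q U]

theorem lane_eq_zero_of_lt {W N n t : ℕ} (h : N < 2 ^ (n * W)) (ht : n ≤ t) : lane W N t = 0 := by
  have h1 : 2 ^ (n * W) ≤ 2 ^ (W * t) :=
    Nat.pow_le_pow_right (by norm_num) (by rw [Nat.mul_comm n W]; exact Nat.mul_le_mul_left W ht)
  rw [lane, Nat.div_eq_of_lt (h.trans_le h1), Nat.zero_mod]

theorem lane_zero_of_lt {W N : ℕ} (h : N < 2 ^ W) : lane W N 0 = N := by
  simp [lane, Nat.mod_eq_of_lt h]

/-- a number is determined by its lanes (`testBit i` is a bit of lane `i / W`) -/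
theorem eq_of_lane {W A B : ℕ} (hW : 1 ≤ W) (h : ∀ t, lane W A t = lane W B t) : A = B := by
  refine Nat.eq_of_testBit_eq fun i => ?_
  have h1 := congrArg (fun z => z.testBit (i % W)) (h (i / W))
  simpa [testBit_lane, Nat.mod_lt i hW, Nat.div_add_mod] using h1

theorem lt_of_lane {W N n : ℕ} (hW : 1 ≤ W) (h : ∀ t, n ≤ t → lane W N t = 0) : N < 2 ^ (n * W) := by
  refine Nat.lt_pow_two_of_testBit N fun i hi => ?_
  have h0 : n ≤ i / W := (Nat.le_div_iff_mul_le hW).2 hi
  have h1 := congrArg (fun z => z.testBit (i % W)) (h (i / W) h0)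
  simpa [testBit_lane, Nat.mod_lt i hW, Nat.div_add_mod] using h1

/-- shifting right by one bit and masking with `2^(W-1) - 1` halves a lane (compare bits) -/
theorem lane_shiftRight_one {W : ℕ} (hW : 1 ≤ W) (N t : ℕ) :
    lane W (N >>> 1) t &&& (2 ^ (W - 1) - 1) = lane W N t / 2 := by
  refine Nat.eq_of_testBit_eq fun i => ?_
  rw [Nat.testBit_and, Nat.testBit_two_pow_sub_one, Nat.testBit_div_two, testBit_lane, testBit_lane,
    Nat.testBit_shiftRight]
  have h2 : 1 + (W * t + i) = W * t + (i + 1) := by ring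
  rw [h2]
  by_cases hi : i + 1 < W
  · have h3 : i < W := by omega
    have h4 : i < W - 1 := by omega
    simp [hi, h3, h4]
  · have h4 : ¬ i < W - 1 := by omega
    simp [hi, h4]

end Crest.Agent.Bern
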