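import Crest.Agent.Lib.Bern.Root
import Crest.Agent.Lib.Bern.Go

/-! # Lib/Bern/Main : the final theorem -/

set_option autoImplicit false

namespace Crest.Agent.Bern

open Finset

/-- `e0 ≥ 0` on the part of the unit cube where all `e ∈ es` are `≤ 0`. -/
theorem main {W0 W V R m n c0 : ℕ} {sh : List ℕ} {e0 : PE} {es : List (PE × ℕ)} (hW : 1 ≤ W0) (hV : V + 1 ≤ W)
    (hm : m = es.length + 1) (hok : rootOk W0 sh ((e0, c0) :: es) = true)
    (hR : Nat.beq (root W0 W V sh ((e0, c0) :: es)) R = true) (hb : bdTest W V n R = true)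
    (hG : Good W V sh m R) (x : ℕ → ℝ) (hx : In01 x) (hyp : ∀ e ∈ es, e.1.eval x ≤ 0) : 0 ≤ e0.eval x := by
  have hR' : root W0 W V sh ((e0, c0) :: es) = R := Nat.eq_of_beq_eq_true hR
  have hB : Bd W V R := bd_of_bdTest hV hb
  set l : List (PE × ℕ) := (e0, c0) :: es with hl
  have hlen : l.length = m := by rw [hm, hl]; rfl
  have key := hG hB x hx (fun j => if h : j < l.length then l[j].1.eval x / (l[j].2 : ℝ) else 0) ?_ ?_
  · have h0 : 0 < l.length := by rw [hlen, hm]; omega
    simp only [dif_pos h0] at key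
    have hc : 0 < c0 := (rootOk_get sh l hok 0 h0).2
    have hc' : (0 : ℝ) < c0 := by exact_mod_cast hc
    have key' : 0 ≤ e0.eval x / (c0 : ℝ) := key
    by_contra hneg
    have : e0.eval x / (c0 : ℝ) < 0 := div_neg_of_neg_of_pos (not_le.mp hneg) hc'
    linarith
  · intro j hj
    have hj' : j < l.length := by rw [hlen]; exact hj
    simp only [dif_pos hj']
    have := root_le hW hV sh l hok (by rw [hR']; exact hB) x hx j hj'
    rwa [hR'] at this
  · intro j h1 hj
    have hj' : j < l.length := by rw [hlen]; exact hj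
    simp only [dif_pos hj']
    obtain ⟨i, rfl⟩ : ∃ i, j = i + 1 := ⟨j - 1, by omega⟩
    have hi : i < es.length := by omega
    have hmem : l[i + 1] ∈ es := by
      have : l[i + 1] = es[i] := rfl
      rw [this]; exact List.getElem_mem hi
    exact div_nonpos_of_nonpos_of_nonneg (hyp _ hmem) (Nat.cast_nonneg _)

end Crest.Agent.Bern
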