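import Crest.Agent.Lib.Bern.RedD

/-! # Lib/Bern/Red2 : the sign test and boxes (helper prefix `r2_`). -/

set_option autoImplicit false

namespace Crest.Agent.Bern

open Finset

/-- copy the second half of `kron_spec` (Kron.lean): the lanes are `A t + 2^(W0-1)`; `ones <<< (W0-1) = 2^(W0-1) * ones`,
`lane_land`, `lane_mul_ones`: the top bit is set, so `0 ≤ A t` (see `leaf_lanes` in Leaf.lean); `ev_mono`, `ev_const`. -/
theorem nonneg_of_sgn {W0 : ℕ} {sh : List ℕ} {N : ℕ} {K : ℤ} {f : (ℕ → ℝ) → ℝ} (hW : 1 ≤ W0)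
    (hR : Rep sh.length (kpt W0 sh) (fun j => sh.getD j 0) N K f) (h : sgnOk W0 sh N K = true)
    (u : ℕ → ℝ) (hu : In01 u) : 0 ≤ f u := by
  unfold sgnOk at h
  rw [Bool.and_eq_true] at h
  obtain ⟨hN, hS⟩ := h
  have hN' := Nat.le_of_ble_eq_true hN
  have hN2 : N + 1 ≤ 2 ^ (W0 - 1) := by
    have e1 : Nat.shiftLeft 1 (Nat.sub W0 1) = 2 ^ (W0 - 1) := Nat.one_shiftLeft _
    rw [← e1]
    exact hN'
  obtain ⟨A, hA, hK, hf⟩ := rep_collect hR
  have hA' : ∀ t, (A t).natAbs < 2 ^ (W0 - 1) := fun t => by have := hA t; omega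
  have h2W : 2 ^ W0 = 2 * 2 ^ (W0 - 1) := by
    rw [← pow_succ']
    congr 1
    omega
  have hP : (((2 : ℕ) ^ (W0 - 1) : ℕ) : ℤ) = 2 ^ (W0 - 1) := by push_cast; rfl
  have hnn : ∀ t, 0 ≤ A t + 2 ^ (W0 - 1) := fun t => by
    have := hA' t
    rw [← hP]; omega
  have hc : ∀ t, (((A t + 2 ^ (W0 - 1)).toNat : ℕ) : ℤ) = A t + 2 ^ (W0 - 1) :=
    fun t => Int.toNat_of_nonneg (hnn t)
  have hlt : ∀ t < size sh, (A t + 2 ^ (W0 - 1)).toNat < 2 ^ W0 := fun t _ => by
    have h1 := hA' t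
    have h2 := hc t
    rw [← hP] at h2 ⊢
    omega
  have hk : Int.toNat (K + ((ones W0 (size sh) <<< (W0 - 1) : ℕ) : ℤ)) =
      ∑ t ∈ range (size sh), (A t + 2 ^ (W0 - 1)).toNat * 2 ^ (W0 * t) := by
    rw [hK, Nat.shiftLeft_eq, ones_eq hW]
    have e2 : ∑ t ∈ range (size sh), A t * 2 ^ (W0 * t) +
        (((∑ t ∈ range (size sh), 2 ^ (W0 * t)) * 2 ^ (W0 - 1) : ℕ) : ℤ) =
        ((∑ t ∈ range (size sh), (A t + 2 ^ (W0 - 1)).toNat * 2 ^ (W0 * t) : ℕ) : ℤ) := by
      rw [Nat.cast_mul, Nat.cast_sum, Nat.cast_sum, Finset.sum_mul, ← Finset.sum_add_distrib]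
      refine Finset.sum_congr rfl (fun t _ => ?_)
      rw [Nat.cast_mul, hc]
      push_cast
      ring
    rw [e2, Int.toNat_natCast]
  have hS' : Int.toNat (K + ((ones W0 (size sh) <<< (W0 - 1) : ℕ) : ℤ)) &&& (ones W0 (size sh) <<< (W0 - 1)) =
      ones W0 (size sh) <<< (W0 - 1) := Nat.eq_of_beq_eq_true hS
  have hm : ones W0 (size sh) <<< (W0 - 1) = 2 ^ (W0 - 1) * ones W0 (size sh) := by
    rw [Nat.shiftLeft_eq, Nat.mul_comm]
  have hpos : 0 < 2 ^ (W0 - 1) := by positivity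
  have hA0 : ∀ t < size sh, 0 ≤ A t := fun t ht => by
    have h1 := congrArg (fun n => lane W0 n t) hS'
    beta_reduce at h1
    rw [hk, lane_land, hm, lane_mul_ones hW (by omega), if_pos ht, lane_sum W0 _ _ hlt, if_pos ht] at h1
    have h2 : 2 ^ (W0 - 1) ≤ (A t + 2 ^ (W0 - 1)).toNat := by
      have h3 := @Nat.and_le_left (A t + 2 ^ (W0 - 1)).toNat (2 ^ (W0 - 1))
      rw [h1] at h3
      exact h3
    have h4 := hc t
    rw [← hP] at h2 h4
    omega
  rw [hf u, ← ev_const u sh 0 0 (0 : ℝ)]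
  refine ev_mono hu sh 0 (fun t ht => ?_)
  rw [Nat.zero_add]
  exact div_nonneg (by exact_mod_cast hA0 t ht) (Nat.cast_nonneg _)

theorem shLe_spec (shL shH : List ℕ) (k : ℕ) (h : shLe shL shH k = true) :
    ∀ j < k, shL.getD j 0 ≤ shH.getD j 0 := by
  induction k with
  | zero => intro j hj; omega
  | succ k ih =>
    have h' : (shLe shL shH k && Nat.ble (shL.getD k 0) (shH.getD k 0)) = true := h
    rw [Bool.and_eq_true] at h'
    intro j hj
    rcases Nat.lt_succ_iff_lt_or_eq.1 hj with h1 | h1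
    · exact ih h'.1 j h1
    · rw [h1]; exact Nat.le_of_ble_eq_true h'.2

theorem PE.eval_congr {k : ℕ} (e : PE) (h : e.wf k = true) {x x' : ℕ → ℝ} (hx : ∀ j < k, x j = x' j) :
    e.eval x = e.eval x' := by
  induction e with
  | var i =>
    have h' : Nat.ble (i + 1) k = true := h
    exact hx i (Nat.le_of_ble_eq_true h')
  | cst z => rfl
  | add a b iha ihb =>
    have h' : (a.wf k && b.wf k) = true := h
    rw [Bool.and_eq_true] at h'
    show a.eval x + b.eval x = a.eval x' + b.eval x'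
    rw [iha h'.1, ihb h'.2]
  | sub a b iha ihb =>
    have h' : (a.wf k && b.wf k) = true := h
    rw [Bool.and_eq_true] at h'
    show a.eval x - b.eval x = a.eval x' - b.eval x'
    rw [iha h'.1, ihb h'.2]
  | mul a b iha ihb =>
    have h' : (a.wf k && b.wf k) = true := h
    rw [Bool.and_eq_true] at h'
    show a.eval x * b.eval x = a.eval x' * b.eval x'
    rw [iha h'.1, ihb h'.2]
  | pow a n iha =>
    have h' : a.wf k = true := h
    show a.eval x ^ n = a.eval x' ^ n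
    rw [iha h']

/-- `u j = ((D j + 1) x j - a j) / (b j - a j)` for `j < k` (`= 0` if `a j = b j`), `0` otherwise -/
theorem exists_pt {k : ℕ} {a b D : ℕ → ℕ} {x : ℕ → ℝ} (h : InBox k a b D x) :
    ∃ u, In01 u ∧ ∀ j < k, pt a b D u j = x j := by
  refine ⟨fun j => if j < k then (((D j : ℝ) + 1) * x j - a j) / ((b j : ℝ) - a j) else 0, fun j => ?_, fun j hj => ?_⟩
  · beta_reduce
    by_cases hj : j < k
    · rw [if_pos hj]
      obtain ⟨h1, h2⟩ := h j hj
      exact ⟨div_nonneg (by linarith) (by linarith), div_le_one_of_le₀ (by linarith) (by linarith)⟩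
    · rw [if_neg hj]
      exact ⟨le_rfl, zero_le_one⟩
  · unfold pt
    beta_reduce
    rw [if_pos hj]
    obtain ⟨h1, h2⟩ := h j hj
    have hD : (D j : ℝ) + 1 ≠ 0 := by positivity
    rw [div_eq_iff hD]
    by_cases hab : (b j : ℝ) - a j = 0
    · rw [hab, div_zero]
      linarith
    · have e := div_mul_cancel₀ (((D j : ℝ) + 1) * x j - a j) hab
      linarith

theorem inBox_split {k : ℕ} {a b : List ℕ} {D : ℕ → ℕ} (i m : ℕ) (ha : i < a.length) (hb : i < b.length)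
    {Q : (ℕ → ℝ) → Prop} (h1 : ∀ x, InBox k (lf a) (lf (b.set i m)) D x → Q x)
    (h2 : ∀ x, InBox k (lf (a.set i m)) (lf b) D x → Q x) : ∀ x, InBox k (lf a) (lf b) D x → Q x := by
  intro x hx
  have hs : ∀ (l : List ℕ), i < l.length → ∀ j, lf (l.set i m) j = if j = i then m else lf l j := by
    intro l hl j
    unfold lf
    by_cases hj : j = i
    · rw [if_pos hj, hj, List.getD_eq_getElem?_getD, List.getElem?_set_self hl]
      rfl
    · rw [if_neg hj, List.getD_eq_getElem?_getD, List.getD_eq_getElem?_getD, List.getElem?_set_ne (Ne.symm hj)]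
  rcases le_total (((D i : ℝ) + 1) * x i) (m : ℝ) with hm | hm
  · refine h1 x (fun j hj => ⟨(hx j hj).1, ?_⟩)
    rw [hs b hb]
    by_cases hji : j = i
    · rw [if_pos hji, hji]
      exact hm
    · rw [if_neg hji]
      exact (hx j hj).2
  · refine h2 x (fun j hj => ⟨?_, (hx j hj).2⟩)
    rw [hs a ha]
    by_cases hji : j = i
    · rw [if_pos hji, hji]
      exact hm
    · rw [if_neg hji]
      exact (hx j hj).1

theorem inBox_of_in01 {k : ℕ} {a b D : ℕ → ℕ} (ha : ∀ j < k, a j = 0) (hb : ∀ j < k, b j = D j + 1) {x : ℕ → ℝ}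
    (hx : ∀ j < k, 0 ≤ x j ∧ x j ≤ 1) : InBox k a b D x := by
  intro j hj
  obtain ⟨h0, h1⟩ := hx j hj
  have hD : (0 : ℝ) ≤ (D j : ℝ) + 1 := by positivity
  rw [ha j hj, hb j hj]
  push_cast
  exact ⟨mul_nonneg hD h0, mul_le_of_le_one_right hD h1⟩

end Crest.Agent.Bern
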