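import Crest.Agent.Lib.Bern.Red1
import Crest.Agent.Lib.Bern.Red2

/-! # Lib/Bern/Red : degree reduction on a patch (helper prefix `rd_`). -/

set_option autoImplicit false

namespace Crest.Agent.Bern

open Finset

theorem rd_cst {k : ℕ} {y : ℕ → ℕ} (n : ℕ) (δ : ℕ → ℕ) :
    Rep k y δ (n * elev (fun _ => 1) δ k) ((n * elev y δ k : ℕ) : ℤ) (fun _ => (n : ℝ)) :=
  ((rep_cst (n : ℤ)).mul (rep_elev δ)).congr (fun _ _ => zero_add _) (le_of_eq (by rw [Int.natAbs_natCast]))
    (by push_cast; ring) (fun _ => by simp)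

theorem rd_elev (D δ δ' : ℕ → ℕ) (k : ℕ) (h : ∀ j < k, δ j ≤ δ' j) :
    elev D δ k * elev D (fun j => δ' j - δ j) k = elev D δ' k := by
  rw [elev_eq, elev_eq, elev_eq, ← prod_mul_distrib]
  refine prod_congr rfl fun j hj => ?_
  rw [← pow_add, Nat.add_sub_cancel' (h j (mem_range.1 hj))]

theorem rd_le1 (N T A B E O : ℕ) : N + T * A * O + T * B * O ≤ N + T * (A + B + E) * O := by
  have : T * (A + B + E) * O = T * A * O + T * B * O + T * E * O := by ring
  omega

/-- With `G = elev D shH` (`> 0`), `T = c G`, `p = e.eval (pt …)`, `q = ev shL 0 u (lanes of B) 0`: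
`kP` represents `G p + T 2^(V-1)` (`rep_homP`, `rep_elv`, `rep_elev`, `rep_cst`, `elev_eq`, `kr_degOk`), `kB` represents `T q`
(`rep_bk` with `j = 0`, `kr_kpt`, `rep_elev`; norm `T 2^W 2^(sum shH)` by `elev_one_sum`, `elev_eq`); `nonneg_of_sgn` twice. -/
theorem red1_sound {W0 W V : ℕ} {a b D : ℕ → ℕ} {shH shL : List ℕ} {B c E : ℕ} {e : PE} (hW : 1 ≤ W0)
    (hl : shL.length = shH.length) (hle : ∀ j < shH.length, shL.getD j 0 ≤ shH.getD j 0)
    (hB : B < 2 ^ (size shL * W)) (h : red1 W0 W V a b D shH shL B e c E = true) (u : ℕ → ℝ) (hu : In01 u) :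
    e.wf shH.length = true ∧ 0 < c ∧ ev shL 0 u (co W V B) 0 ≤ e.eval (pt a b D u) / c ∧
      e.eval (pt a b D u) / c ≤ ev shL 0 u (co W V B) 0 + E := by
  unfold red1 at h
  simp only [Bool.and_eq_true] at h
  obtain ⟨⟨⟨hwf, hdeg⟩, hc⟩, h1, h2⟩ := h
  have hc0 : 0 < c := Nat.le_of_ble_eq_true hc
  have hd := kr_degOk shH e shH.length hdeg
  obtain ⟨G, hG⟩ : ∃ G, G = elev D (fun j => shH.getD j 0) shH.length := ⟨_, rfl⟩
  obtain ⟨O, hO⟩ : ∃ O, O = elev (fun _ => 1) (fun j => shH.getD j 0) shH.length := ⟨_, rfl⟩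
  have hG0 : 0 < G := by rw [hG, elev_eq]; exact prod_pos fun j _ => by positivity
  obtain ⟨N1, hN1⟩ : ∃ N1, N1 = e.nrmP a b D shH.length *
      elv D (fun _ => 1) (fun j => shH.getD j 0 - e.deg j) shH.length := ⟨_, rfl⟩
  have hnR : nR W V a b D shH e c E = N1 + c * G * (2 ^ (V - 1) + 2 ^ W + E) * O := by
    rw [hN1, hG, hO, ← Nat.one_shiftLeft (V - 1), ← Nat.one_shiftLeft W]
    rfl
  have rP : Rep shH.length (kpt W0 shH) (fun j => shH.getD j 0) (N1 + c * G * 2 ^ (V - 1) * O)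
      (kP W0 V a b D shH e c) (fun u => (G : ℝ) * e.eval (pt a b D u) + c * G * 2 ^ (V - 1)) := by
    have r1 := ((rep_homP (y := kpt W0 shH) a b D e hwf).mul
      (rep_elv (k := shH.length) (y := kpt W0 shH) D (fun j => shH.getD j 0 - e.deg j))).congr
      (δ' := fun j => shH.getD j 0) (f' := fun u => (G : ℝ) * e.eval (pt a b D u)) (N' := N1)
      (fun j hj => by have := hd j hj; omega) (le_of_eq hN1.symm) rfl (fun x => by
        rw [hG, ← rd_elev D (fun j => e.deg j) (fun j => shH.getD j 0) _ hd]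
        push_cast
        ring)
    have r2 := rd_cst (k := shH.length) (y := kpt W0 shH) (c * G * 2 ^ (V - 1)) (fun j => shH.getD j 0)
    refine (r1.add r2).congr (fun _ _ => rfl) (le_of_eq (by rw [hO])) ?_ (fun x => by push_cast; ring)
    rw [hG, ← Nat.shiftLeft_eq]
    rfl
  have rB : Rep shH.length (kpt W0 shH) (fun j => shH.getD j 0) (c * G * 2 ^ W * O)
      (kB W0 W D shH shL B c : ℕ) (fun u => (c : ℝ) * G * ev shL 0 u (fun t => (lane W B t : ℝ)) 0) := by
    have r1 := rep_bk (k := shH.length) (y := kpt W0 shH) W (fun j => W0 * stride shH j) (kr_kpt W0 shH) shL 0 B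
      (by omega) hB
    have r2 := ((rep_cst (k := shH.length) (y := kpt W0 shH) ((c * G : ℕ) : ℤ)).mul r1).mul
      (rep_elev (k := shH.length) (y := kpt W0 shH) (fun j => shH.getD j 0 - shL.getD j 0))
    refine r2.congr (fun j hj => ?_) (le_of_eq ?_) ?_ (fun x => by push_cast; ring)
    · have := hle j hj
      simp only [Nat.zero_le, if_true, Nat.sub_zero]
      omega
    · rw [Int.natAbs_natCast, ← elev_one_sum, hl, hO,
        ← rd_elev (fun _ => 1) (fun j => shL.getD j 0) (fun j => shH.getD j 0) _ hle]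
      ring
    · rw [hG, ← Nat.cast_mul, ← Nat.cast_mul]
      rfl
  have rE := rd_cst (k := shH.length) (y := kpt W0 shH) (c * G * E) (fun j => shH.getD j 0)
  have g1 := nonneg_of_sgn hW ((rP.add rB.neg).congr (N' := nR W V a b D shH e c E) (fun _ _ => rfl)
    (by rw [hnR]; exact rd_le1 _ _ _ _ _ _) (sub_eq_add_neg _ _).symm (fun _ => rfl)) h1 u hu
  have g2 := nonneg_of_sgn hW (((rB.add rE).add rP.neg).congr (N' := nR W V a b D shH e c E) (fun _ _ => rfl)
    (by rw [hnR, ← hO]; exact le_of_eq (by ring))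
    (by rw [← sub_eq_add_neg, ← Nat.cast_add, hG]; rfl) (fun _ => rfl)) h2 u hu
  have hq : ev shL 0 u (co W V B) 0 = ev shL 0 u (fun t => (lane W B t : ℝ)) 0 - 2 ^ (V - 1) := by
    have e1 := ev_add u shL 0 0 (fun t => (lane W B t : ℝ)) (fun _ => -(2 : ℝ) ^ (V - 1))
    rw [ev_const] at e1
    rw [sub_eq_add_neg, ← e1]
    exact ev_congr u shL 0 fun t _ => sub_eq_add_neg _ _
  have hcR : (0 : ℝ) < c := by exact_mod_cast hc0
  have hGR : (0 : ℝ) < G := by exact_mod_cast hG0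
  push_cast at g1 g2
  refine ⟨hwf, hc0, ?_, ?_⟩
  · rw [hq, le_div_iff₀ hcR]
    refine le_of_mul_le_mul_left ?_ hGR
    linarith
  · rw [hq, div_le_iff₀ hcR]
    refine le_of_mul_le_mul_left ?_ hGR
    linarith

/-- induction on `es` generalizing `j0`, `j`; `land_shiftRight_full`, `lane_lane`, `lane_lt`, `ev_congr` -/
theorem red_sound {W0 W V : ℕ} {a b D : ℕ → ℕ} {shH shL : List ℕ} {Y j0 : ℕ} {es : List (PE × ℕ × ℕ)} (hW : 1 ≤ W0)
    (h : redOk W0 W V a b D shH shL Y j0 es = true) (u : ℕ → ℝ) (hu : In01 u) (j : ℕ) (hj : j < es.length) :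
    es[j].1.wf shH.length = true ∧ 0 < es[j].2.1 ∧
      ev shL 0 u (co W V Y) ((j0 + j) * size shL) ≤ es[j].1.eval (pt a b D u) / (es[j].2.1 : ℝ) ∧
      es[j].1.eval (pt a b D u) / (es[j].2.1 : ℝ) ≤ ev shL 0 u (co W V Y) ((j0 + j) * size shL) + (es[j].2.2 : ℝ) := by
  unfold redOk at h
  simp only [Bool.and_eq_true] at h
  obtain ⟨⟨hl, hle⟩, h⟩ := h
  have hl' : shL.length = shH.length := Nat.eq_of_beq_eq_true hl
  have hle' := shLe_spec shL shH _ hle
  induction es generalizing j0 j with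
  | nil => exact absurd hj (Nat.not_lt_zero _)
  | cons e es ih =>
    have h' : (red1 W0 W V a b D shH shL ((Y >>> (j0 * (size shL * W))) &&& full (size shL * W)) e.1 e.2.1 e.2.2 &&
        redAux W0 W V a b D shH shL Y es (j0 + 1)) = true := h
    rw [Bool.and_eq_true, land_shiftRight_full] at h'
    cases j with
    | zero =>
      have k := red1_sound hW hl' hle' (lane_lt _ _ _) h'.1 u hu
      have e1 : ev shL 0 u (co W V (lane (size shL * W) Y j0)) 0 = ev shL 0 u (co W V Y) ((j0 + 0) * size shL) := by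
        refine ev_congr u shL 0 fun t ht => ?_
        unfold co
        rw [zero_add, lane_lane, if_pos ht, add_zero]
      rw [e1] at k
      exact k
    | succ j =>
      have k := ih (j0 := j0 + 1) j (Nat.lt_of_succ_lt_succ hj) h'.2
      have e1 : j0 + 1 + j = j0 + (j + 1) := by omega
      rw [e1] at k
      exact k

/-- `exists_pt`, `red_sound`, `PE.eval_congr` -/
theorem red_box {W0 W V : ℕ} {a b D : ℕ → ℕ} {shH shL : List ℕ} {Y : ℕ} {es : List (PE × ℕ × ℕ)} (hW : 1 ≤ W0)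
    (h : redOk W0 W V a b D shH shL Y 0 es = true) {x : ℕ → ℝ} (hx : InBox shH.length a b D x) :
    ∃ u, In01 u ∧ ∀ j (hj : j < es.length), 0 < es[j].2.1 ∧
      ev shL 0 u (co W V Y) (j * size shL) ≤ es[j].1.eval x / (es[j].2.1 : ℝ) ∧
      es[j].1.eval x / (es[j].2.1 : ℝ) ≤ ev shL 0 u (co W V Y) (j * size shL) + (es[j].2.2 : ℝ) := by
  obtain ⟨u, hu, hp⟩ := exists_pt hx
  refine ⟨u, hu, fun j hj => ?_⟩
  obtain ⟨h1, h2, h3, h4⟩ := red_sound hW h u hu j hj
  rw [zero_add, PE.eval_congr _ h1 hp] at h3 h4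
  exact ⟨h2, h3, h4⟩

/-- the scalar theorem on a patch (copy the proof of `main`) -/
theorem main_red {W0 W V Y m n : ℕ} {a b D : ℕ → ℕ} {shH shL : List ℕ} {e0 : PE × ℕ × ℕ} {es : List (PE × ℕ × ℕ)}
    (hW : 1 ≤ W0) (hV : V + 1 ≤ W) (hm : m = es.length + 1)
    (h : redOk W0 W V a b D shH shL Y 0 (e0 :: es) = true) (hb : bdTest W V n Y = true)
    (hG : Good W V shL m Y) (x : ℕ → ℝ) (hx : InBox shH.length a b D x) (hyp : ∀ e ∈ es, e.1.eval x ≤ 0) :
    0 ≤ e0.1.eval x := by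
  have hB : Bd W V Y := bd_of_bdTest hV hb
  obtain ⟨u, hu, hr⟩ := red_box hW h hx
  set l : List (PE × ℕ × ℕ) := e0 :: es with hl
  have hlen : l.length = m := by rw [hm, hl]; rfl
  have key := hG hB u hu (fun j => if h : j < l.length then l[j].1.eval x / (l[j].2.1 : ℝ) else 0) ?_ ?_
  · have h0 : 0 < l.length := by rw [hlen, hm]; omega
    simp only [dif_pos h0] at key
    have hc : 0 < e0.2.1 := (hr 0 h0).1
    have hc' : (0 : ℝ) < e0.2.1 := by exact_mod_cast hc
    have key' : 0 ≤ e0.1.eval x / (e0.2.1 : ℝ) := key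
    by_contra hneg
    have : e0.1.eval x / (e0.2.1 : ℝ) < 0 := div_neg_of_neg_of_pos (not_le.mp hneg) hc'
    linarith
  · intro j hj
    have hj' : j < l.length := by rw [hlen]; exact hj
    simp only [dif_pos hj']
    exact (hr j hj').2.1
  · intro j h1 hj
    have hj' : j < l.length := by rw [hlen]; exact hj
    simp only [dif_pos hj']
    obtain ⟨i, rfl⟩ : ∃ i, j = i + 1 := ⟨j - 1, by omega⟩
    have hi : i < es.length := by omega
    have hmem : l[i + 1] ∈ es := by
      have : l[i + 1] = es[i] := rfl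
      rw [this]; exact List.getElem_mem hi
    exact div_nonpos_of_nonpos_of_nonneg (hyp _ hmem) (Nat.cast_nonneg _)

end Crest.Agent.Bern
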