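import Crest.Agent.Lib.Bern.RedD

/-! # Lib/Bern/Red1 : representations on a patch (helper prefix `r1_`). -/

set_option autoImplicit false

namespace Crest.Agent.Bern

open Finset

variable {k : ℕ} {y : ℕ → ℕ}

theorem elev_eq (D δ : ℕ → ℕ) (k : ℕ) : elev D δ k = ∏ j ∈ range k, (D j + 1) ^ δ j := by
  induction k with
  | zero => rfl
  | succ k ih =>
    rw [prod_range_succ, ← ih]
    rfl

/-- as `rep_var`, with `μ = 0` -/
theorem rep_omx {i : ℕ} (hi : i < k) : Rep k y (fun j => if i = j then 1 else 0) 1 1 (fun x => 1 - x i) := by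
  refine ⟨Unit, univ, fun _ => 1, fun _ _ => 0, fun _ _ _ _ => Nat.zero_le _, by simp, by simp, fun x => ?_⟩
  simp only [univ_unique, sum_singleton, Int.cast_one, one_mul, pow_zero, Nat.sub_zero]
  rw [prod_eq_single i (fun b _ hb => by simp [Ne.symm hb]) (fun h => absurd (mem_range.2 hi) h)]
  simp

/-- `rep_cst`, `rep_elev`, `Rep.mul` -/
theorem rep_elv (D δ : ℕ → ℕ) :
    Rep k y δ (elv D (fun _ => 1) δ k) (elv D y δ k : ℕ) (fun _ => (elev D δ k : ℝ)) := by
  refine ((rep_cst (k := k) (y := y) (elev D δ k : ℕ)).mul (rep_elev δ)).congr (fun j _ => zero_add _)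
    (le_of_eq ?_) ?_ (fun x => by simp)
  · rw [Int.natAbs_natCast]
    rfl
  · show _ = ((elev D δ k * elev y δ k : ℕ) : ℤ)
    push_cast
    rfl

theorem r1_add (D α β γ : ℕ → ℕ) (k : ℕ) (h : ∀ j, γ j = α j + β j) :
    (elev D γ k : ℝ) = elev D α k * elev D β k := by
  rw [← Nat.cast_mul, elev_eq, elev_eq, elev_eq, ← prod_mul_distrib]
  exact congrArg _ (prod_congr rfl fun j _ => by rw [h, pow_add])

/-- copy the proof of `rep_hom` (Rep.lean); `elev_eq`, `prod_mul_distrib`, `pow_add`, `prod_pow`; variable case:
`a (1 - u) + b u` by `rep_cst`, `rep_omx`, `rep_var`, `prod_eq_single`. -/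
theorem rep_homP (a b D : ℕ → ℕ) (e : PE) (h : e.wf k = true) :
    Rep k y (fun j => e.deg j) (e.nrmP a b D k) (e.homP a b D y k)
      (fun u => (elev D (fun j => e.deg j) k : ℝ) * e.eval (pt a b D u)) := by
  induction e with
  | var i =>
    have hi : i < k := Nat.le_of_ble_eq_true h
    have hd : ∀ j, (PE.var i).deg j = if i = j then 1 else 0 := fun j => by
      show @Bool.rec (fun _ => ℕ) 0 1 (Nat.beq i j) = _
      by_cases hij : i = j
      · subst hij
        rw [if_pos rfl, Nat.beq_refl]
      · rw [if_neg hij, rp_beq hij]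
    have h1 := (rep_cst (k := k) (y := y) (a i : ℕ)).mul (rep_omx hi)
    have h2 := (rep_cst (k := k) (y := y) (b i : ℕ)).mul (rep_var hi)
    refine (h1.add h2).congr (fun j _ => by rw [hd, zero_add]) (le_of_eq ?_) ?_ (fun x => ?_)
    · show _ = a i + b i
      simp
    · show _ = ((a i + b i * y i : ℕ) : ℤ)
      push_cast
      ring
    · have he : elev D (fun j => (PE.var i).deg j) k = D i + 1 := by
        rw [elev_eq, prod_eq_single i (fun b _ hb => by simp [hd, Ne.symm hb]) (fun h => absurd (mem_range.2 hi) h)]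
        simp [hd]
      have h0 : (D i : ℝ) + 1 ≠ 0 := by positivity
      rw [he]
      simp only [PE.eval, pt]
      push_cast
      field_simp
  | cst z =>
    refine (rep_cst z).congr (fun _ _ => rfl) le_rfl rfl (fun x => ?_)
    have he : elev D (fun j => (PE.cst z).deg j) k = 1 := by
      rw [elev_eq]
      exact prod_eq_one fun j _ => pow_zero _
    rw [he]
    simp [PE.eval]
  | add p q ihp ihq =>
    have hab : (p.wf k && q.wf k) = true := h
    rw [Bool.and_eq_true] at hab
    have ha := (ihp hab.1).mul (rep_elv (y := y) (k := k) D fun j => q.deg j - p.deg j)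
    have hb := (ihq hab.2).mul (rep_elv (y := y) (k := k) D fun j => p.deg j - q.deg j)
    have hb' := hb.congr (δ' := fun j => p.deg j + (q.deg j - p.deg j)) (fun j _ => by omega) le_rfl rfl
      (fun _ => rfl)
    refine (ha.add hb').congr (fun _ _ => rfl) (le_of_eq rfl) rfl (fun x => ?_)
    have e1 := r1_add D (fun j => p.deg j) (fun j => q.deg j - p.deg j) (fun j => (PE.add p q).deg j) k fun _ => rfl
    have e2 := r1_add D (fun j => q.deg j) (fun j => p.deg j - q.deg j) (fun j => (PE.add p q).deg j) k fun j => by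
      show p.deg j + (q.deg j - p.deg j) = _
      omega
    simp only [PE.eval]
    rw [mul_add]
    congr 1
    · rw [e1]; ring
    · rw [e2]; ring
  | sub p q ihp ihq =>
    have hab : (p.wf k && q.wf k) = true := h
    rw [Bool.and_eq_true] at hab
    have ha := (ihp hab.1).mul (rep_elv (y := y) (k := k) D fun j => q.deg j - p.deg j)
    have hb := (ihq hab.2).mul (rep_elv (y := y) (k := k) D fun j => p.deg j - q.deg j)
    have hb' := hb.congr (δ' := fun j => p.deg j + (q.deg j - p.deg j)) (fun j _ => by omega) le_rfl rfl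
      (fun _ => rfl)
    refine (ha.add hb'.neg).congr (fun _ _ => rfl) (le_of_eq rfl) (sub_eq_add_neg _ _).symm (fun x => ?_)
    have e1 := r1_add D (fun j => p.deg j) (fun j => q.deg j - p.deg j) (fun j => (PE.sub p q).deg j) k fun _ => rfl
    have e2 := r1_add D (fun j => q.deg j) (fun j => p.deg j - q.deg j) (fun j => (PE.sub p q).deg j) k fun j => by
      show p.deg j + (q.deg j - p.deg j) = _
      omega
    simp only [PE.eval]
    rw [mul_sub, sub_eq_add_neg]
    congr 1
    · rw [e1]; ring
    · rw [e2]; ring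
  | mul p q ihp ihq =>
    have hab : (p.wf k && q.wf k) = true := h
    rw [Bool.and_eq_true] at hab
    refine ((ihp hab.1).mul (ihq hab.2)).congr (fun _ _ => rfl) (le_of_eq rfl) rfl (fun x => ?_)
    have e1 := r1_add D (fun j => p.deg j) (fun j => q.deg j) (fun j => (PE.mul p q).deg j) k fun _ => rfl
    simp only [PE.eval]
    rw [e1]; ring
  | pow p n ihp =>
    refine ((ihp h).pow n).congr (fun _ _ => rfl) (le_of_eq rfl) rfl (fun x => ?_)
    have e1 : elev D (fun j => (PE.pow p n).deg j) k = elev D (fun j => p.deg j) k ^ n := by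
      rw [elev_eq, elev_eq, ← prod_pow]
      exact prod_congr rfl fun j _ => by rw [← pow_mul]; rfl
    simp only [PE.eval]
    rw [e1]
    push_cast
    ring

/-- Induction on `sh` generalizing `j`, `N`; inner induction on the number `l ≤ d+1` of terms with the norm
`(∑_{i<l} d.choose i) * (2^W * 2^r.sum)` (`Nat.sum_range_choose`); the term `i` is
`rep_cst (d.choose i) * rep_var^i * rep_omx^(d-i) * ih`; `land_shiftRight_full`, `lane_lane`, `lane_lt`, `ev_congr`, `binom_eq`,
`Nat.shiftLeft_eq` (see the proof of `lane_repack` in Root.lean). -/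
theorem rep_bk (W : ℕ) (sb : ℕ → ℕ) (hy : ∀ j, y j = 2 ^ sb j) (sh : List ℕ) (j N : ℕ) (hk : j + sh.length ≤ k)
    (hN : N < 2 ^ (size sh * W)) :
    Rep k y (fun l => if j ≤ l then sh.getD (l - j) 0 else 0) (2 ^ W * 2 ^ sh.sum) (bk W sb sh j N : ℕ)
      (fun u => ev sh j u (fun t => (lane W N t : ℝ)) 0) := by
  induction sh generalizing j N with
  | nil =>
    have hN' : N < 2 ^ W := by simpa [size] using hN
    refine (rep_cst (N : ℕ)).congr (fun l _ => by simp) ?_ rfl (fun x => ?_)
    · simpa using hN'.le
    · simp [ev, lane_zero_of_lt hN']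
  | cons d r ih =>
    have hjk : j < k := by simp at hk; omega
    have hk' : j + 1 + r.length ≤ k := by simp at hk; omega
    have key : ∀ l : ℕ, l ≤ d + 1 → Rep k y (fun l => if j ≤ l then (d :: r).getD (l - j) 0 else 0)
        ((∑ i ∈ range l, d.choose i) * (2 ^ W * 2 ^ r.sum))
        ((@Nat.rec (fun _ => ℕ) 0 (fun i acc => acc + (binom d i * bk W sb r (j + 1)
          ((N >>> (i * size r * W)) &&& full (size r * W))) <<< (i * sb j)) l : ℕ) : ℤ)
        (fun u => ∑ i ∈ range l, bern d i (u j) * ev r (j + 1) u (fun t => (lane W N t : ℝ)) (0 + i * size r)) := by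
      intro l
      induction l with
      | zero =>
        intro _
        exact ⟨Empty, ∅, fun _ => 0, fun _ _ => 0, by simp, by simp, by simp, by simp⟩
      | succ i ihi =>
        intro hi
        have h1 := ((rep_cst (k := k) (y := y) (d.choose i : ℕ)).mul ((rep_var hjk).pow i)).mul
          ((rep_omx hjk).pow (d - i))
        have h2 := h1.mul (ih (j + 1) (lane (size r * W) N i) hk' (lane_lt _ _ _))
        have h3 := h2.congr (δ' := fun l => if j ≤ l then (d :: r).getD (l - j) 0 else 0) (fun l _ => by
          rcases lt_trichotomy l j with h | h | h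
          · simp [h.ne', show ¬ j ≤ l by omega, show ¬ j + 1 ≤ l by omega]
          · subst h
            simp
            omega
          · obtain ⟨m, rfl⟩ := Nat.exists_eq_add_of_lt h
            have e1 : j + m + 1 - j = m + 1 := by omega
            have e2 : j + m + 1 - (j + 1) = m := by omega
            simp [e1, e2, show j ≠ j + m + 1 by omega, show j ≤ j + m + 1 by omega]) le_rfl rfl (fun _ => rfl)
        refine ((ihi (by omega)).add h3).congr (fun _ _ => rfl) (le_of_eq ?_) ?_ (fun x => ?_)
        · rw [sum_range_succ, Int.natAbs_natCast]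
          ring
        · show _ = (((_ : ℕ) + (binom d i * bk W sb r (j + 1)
            ((N >>> (i * size r * W)) &&& full (size r * W))) <<< (i * sb j) : ℕ) : ℤ)
          rw [mul_assoc i (size r) W, land_shiftRight_full, Nat.shiftLeft_eq, binom_eq, hy j, mul_comm i (sb j),
            pow_mul]
          push_cast
          ring
        · rw [sum_range_succ, bern]
          congr 1
          push_cast
          congr 1
          refine ev_congr x r (j + 1) fun t ht => ?_
          rw [lane_lane, zero_add, if_pos ht, zero_add]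
    refine (key (d + 1) le_rfl).congr (fun _ _ => rfl) (le_of_eq ?_) rfl (fun _ => rfl)
    rw [Nat.sum_range_choose, List.sum_cons, pow_add]
    ring

theorem elev_one_sum (sh : List ℕ) : elev (fun _ => 1) (fun j => sh.getD j 0) sh.length = 2 ^ sh.sum := by
  rw [elev_eq, prod_pow_eq_pow_sum]
  congr 1
  induction sh with
  | nil => simp
  | cons d r ih =>
    rw [List.length_cons, sum_range_succ', List.sum_cons, ← ih, add_comm]
    simp

end Crest.Agent.Bern
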