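import Crest.Agent.Lib.Bern.Main

/-! # Lib/Bern/RedD : degree reduction on a patch, definitions (owner helper67).
The patch is `x_j = (a_j (1 - u_j) + b_j u_j) / (D_j + 1)`, `u` in the unit cube. -/

set_option autoImplicit false

namespace Crest.Agent.Bern

open Finset

/-- the point of the patch -/
noncomputable def pt (a b D : ℕ → ℕ) (u : ℕ → ℝ) : ℕ → ℝ :=
  fun j => ((a j : ℝ) * (1 - u j) + (b j : ℝ) * u j) / ((D j : ℝ) + 1)

/-- `∏_{j<k} ((D j + 1) (y j + 1))^(δ j)` -/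
noncomputable def elv (D y δ : ℕ → ℕ) (k : ℕ) : ℕ := Nat.mul (elev D δ k) (elev y δ k)

/-- homogeneous value on the patch, times `∏ (D j + 1)^(deg j)` -/
noncomputable def PE.homP (a b D y : ℕ → ℕ) (k : ℕ) (e : PE) : ℤ :=
  @PE.rec (fun _ => ℤ) (fun i => Int.ofNat (Nat.add (a i) (Nat.mul (b i) (y i)))) (fun z => z)
    (fun p q vp vq => Int.add
      (Int.mul vp (Int.ofNat (elv D y (fun j => Nat.sub (q.deg j) (p.deg j)) k)))
      (Int.mul vq (Int.ofNat (elv D y (fun j => Nat.sub (p.deg j) (q.deg j)) k))))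
    (fun p q vp vq => Int.sub
      (Int.mul vp (Int.ofNat (elv D y (fun j => Nat.sub (q.deg j) (p.deg j)) k)))
      (Int.mul vq (Int.ofNat (elv D y (fun j => Nat.sub (p.deg j) (q.deg j)) k))))
    (fun _ _ vp vq => Int.mul vp vq) (fun _ n vp => Int.pow vp n) e

/-- bound for the sum of the absolute values of the coefficients -/
noncomputable def PE.nrmP (a b D : ℕ → ℕ) (k : ℕ) (e : PE) : ℕ :=
  @PE.rec (fun _ => ℕ) (fun i => Nat.add (a i) (b i)) (fun z => Int.natAbs z)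
    (fun p q vp vq => Nat.add
      (Nat.mul vp (elv D (fun _ => 1) (fun j => Nat.sub (q.deg j) (p.deg j)) k))
      (Nat.mul vq (elv D (fun _ => 1) (fun j => Nat.sub (p.deg j) (q.deg j)) k)))
    (fun p q vp vq => Nat.add
      (Nat.mul vp (elv D (fun _ => 1) (fun j => Nat.sub (q.deg j) (p.deg j)) k))
      (Nat.mul vq (elv D (fun _ => 1) (fun j => Nat.sub (p.deg j) (q.deg j)) k)))
    (fun _ _ vp vq => Nat.mul vp vq) (fun _ n vp => Nat.pow vp n) e

/-- Kronecker value (variable `j` at `2^(sb j)`) of the Bernstein form with the lanes of `N` as coefficients -/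
noncomputable def bk (W : ℕ) (sb : ℕ → ℕ) (sh : List ℕ) : ℕ → ℕ → ℕ :=
  @List.rec ℕ (fun _ => ℕ → ℕ → ℕ) (fun _ N => N)
    (fun d r ih j N => @Nat.rec (fun _ => ℕ) 0
      (fun i acc => Nat.add acc (Nat.shiftLeft (Nat.mul (binom d i)
        (ih (Nat.succ j) (Nat.land (Nat.shiftRight N (Nat.mul (Nat.mul i (size r)) W)) (full (Nat.mul (size r) W)))))
        (Nat.mul i (sb j)))) (Nat.succ d)) sh

/-- all coefficients are nonnegative -/
noncomputable def sgnOk (W0 : ℕ) (sh : List ℕ) (N : ℕ) (K : ℤ) : Bool :=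
  and (Nat.ble (Nat.succ N) (Nat.shiftLeft 1 (Nat.sub W0 1)))
    (Nat.beq (Nat.land (Int.toNat (Int.add K (Int.ofNat (Nat.shiftLeft (ones W0 (size sh)) (Nat.sub W0 1)))))
      (Nat.shiftLeft (ones W0 (size sh)) (Nat.sub W0 1))) (Nat.shiftLeft (ones W0 (size sh)) (Nat.sub W0 1)))

/-- `shL ≤ shH` in the first `k` entries -/
noncomputable def shLe (shL shH : List ℕ) (k : ℕ) : Bool :=
  @Nat.rec (fun _ => Bool) true (fun j ih => and ih (Nat.ble (shL.getD j 0) (shH.getD j 0))) k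

/-- `∏ (D+1)^shH · e`, plus the offset `T 2^(V-1)` -/
noncomputable def kP (W0 V : ℕ) (a b D : ℕ → ℕ) (shH : List ℕ) (e : PE) (c : ℕ) : ℤ :=
  Int.add (Int.mul (e.homP a b D (kpt W0 shH) shH.length)
      (Int.ofNat (elv D (kpt W0 shH) (fun j => Nat.sub (shH.getD j 0) (e.deg j)) shH.length)))
    (Int.ofNat (Nat.mul (Nat.shiftLeft (Nat.mul c (elev D (fun j => shH.getD j 0) shH.length)) (Nat.sub V 1))
      (elev (kpt W0 shH) (fun j => shH.getD j 0) shH.length)))

/-- `T ·` (Bernstein form of the lanes of `B`), `T = c ∏ (D+1)^shH` -/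
noncomputable def kB (W0 W : ℕ) (D : ℕ → ℕ) (shH shL : List ℕ) (B c : ℕ) : ℕ :=
  Nat.mul (Nat.mul (Nat.mul c (elev D (fun j => shH.getD j 0) shH.length))
      (bk W (fun j => Nat.mul W0 (stride shH j)) shL 0 B))
    (elev (kpt W0 shH) (fun j => Nat.sub (shH.getD j 0) (shL.getD j 0)) shH.length)

/-- common bound of the norms -/
noncomputable def nR (W V : ℕ) (a b D : ℕ → ℕ) (shH : List ℕ) (e : PE) (c E : ℕ) : ℕ :=
  Nat.add (Nat.mul (e.nrmP a b D shH.length)
      (elv D (fun _ => 1) (fun j => Nat.sub (shH.getD j 0) (e.deg j)) shH.length))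
    (Nat.mul (Nat.mul (Nat.mul c (elev D (fun j => shH.getD j 0) shH.length))
      (Nat.add (Nat.add (Nat.shiftLeft 1 (Nat.sub V 1)) (Nat.shiftLeft 1 W)) E))
      (elev (fun _ => 1) (fun j => shH.getD j 0) shH.length))

/-- the test for one block `B` -/
noncomputable def red1 (W0 W V : ℕ) (a b D : ℕ → ℕ) (shH shL : List ℕ) (B : ℕ) (e : PE) (c E : ℕ) : Bool :=
  and (and (and (e.wf shH.length) (degOk shH e shH.length)) (Nat.ble 1 c))
    (and (sgnOk W0 shH (nR W V a b D shH e c E) (Int.sub (kP W0 V a b D shH e c) (Int.ofNat (kB W0 W D shH shL B c))))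
      (sgnOk W0 shH (nR W V a b D shH e c E)
        (Int.sub (Int.ofNat (Nat.add (kB W0 W D shH shL B c)
          (Nat.mul (Nat.mul (Nat.mul c (elev D (fun j => shH.getD j 0) shH.length)) E)
            (elev (kpt W0 shH) (fun j => shH.getD j 0) shH.length)))) (kP W0 V a b D shH e c))))

/-- the tests for the blocks `j, j+1, …`; entries are (expression, divisor, error) -/
noncomputable def redAux (W0 W V : ℕ) (a b D : ℕ → ℕ) (shH shL : List ℕ) (Y : ℕ) (es : List (PE × ℕ × ℕ)) : ℕ → Bool :=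
  @List.rec (PE × ℕ × ℕ) (fun _ => ℕ → Bool) (fun _ => true)
    (fun e _ ih j => and (red1 W0 W V a b D shH shL
      (Nat.land (Nat.shiftRight Y (Nat.mul j (Nat.mul (size shL) W))) (full (Nat.mul (size shL) W))) e.1 e.2.1 e.2.2)
      (ih (Nat.succ j))) es

/-- the whole test, for the blocks `j0, j0+1, …` of `Y` -/
noncomputable def redOk (W0 W V : ℕ) (a b D : ℕ → ℕ) (shH shL : List ℕ) (Y j0 : ℕ) (es : List (PE × ℕ × ℕ)) : Bool :=
  and (and (Nat.beq shL.length shH.length) (shLe shL shH shH.length)) (redAux W0 W V a b D shH shL Y es j0)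

/-- a list as a function -/
def lf (l : List ℕ) : ℕ → ℕ := fun j => l.getD j 0

/-- the patch as a set -/
def InBox (k : ℕ) (a b D : ℕ → ℕ) (x : ℕ → ℝ) : Prop :=
  ∀ j < k, (a j : ℝ) ≤ ((D j : ℝ) + 1) * x j ∧ ((D j : ℝ) + 1) * x j ≤ b j

end Crest.Agent.Bern
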