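import Crest.Agent.Lib.Bern.Defs

/-! # Lib/Bern/Rep : homogeneous representation of a polynomial expression (helper prefix `rp_`). -/

set_option autoImplicit false

namespace Crest.Agent.Bern

open Finset

/-- `f = ∑ a_i ∏ x_j^(μ_ij) (1-x_j)^(δ_j - μ_ij)`, `K = ∑ a_i ∏ y_j^(μ_ij)`, `∑ |a_i| ≤ N` -/
def Rep (k : ℕ) (y : ℕ → ℕ) (δ : ℕ → ℕ) (N : ℕ) (K : ℤ) (f : (ℕ → ℝ) → ℝ) : Prop :=
  ∃ (ι : Type) (s : Finset ι) (a : ι → ℤ) (μ : ι → ℕ → ℕ),
    (∀ i ∈ s, ∀ j < k, μ i j ≤ δ j) ∧ ∑ i ∈ s, (a i).natAbs ≤ N ∧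
    K = ∑ i ∈ s, a i * ∏ j ∈ range k, (y j : ℤ) ^ μ i j ∧
    ∀ x, f x = ∑ i ∈ s, (a i : ℝ) * ∏ j ∈ range k, (x j ^ μ i j * (1 - x j) ^ (δ j - μ i j))

variable {k : ℕ} {y : ℕ → ℕ}

theorem Rep.congr {δ δ' : ℕ → ℕ} {N N' : ℕ} {K K' : ℤ} {f f' : (ℕ → ℝ) → ℝ} (h : Rep k y δ N K f)
    (hδ : ∀ j < k, δ j = δ' j) (hN : N ≤ N') (hK : K = K') (hf : ∀ x, f x = f' x) : Rep k y δ' N' K' f' := by
  obtain ⟨ι, s, a, μ, h1, h2, h3, h4⟩ := h
  refine ⟨ι, s, a, μ, fun i hi j hj => hδ j hj ▸ h1 i hi j hj, h2.trans hN, hK ▸ h3, fun x => ?_⟩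
  rw [← hf x, h4 x]
  refine sum_congr rfl fun i _ => ?_
  congr 1
  exact prod_congr rfl fun j hj => by rw [hδ j (mem_range.1 hj)]

theorem rep_cst (z : ℤ) : Rep k y (fun _ => 0) z.natAbs z (fun _ => (z : ℝ)) := by
  refine ⟨Unit, univ, fun _ => z, fun _ _ => 0, fun _ _ _ _ => le_rfl, ?_, ?_, fun x => ?_⟩ <;> simp

theorem rep_var {i : ℕ} (hi : i < k) : Rep k y (fun j => if i = j then 1 else 0) 1 (y i) (fun x => x i) := by
  refine ⟨Unit, univ, fun _ => 1, fun _ j => if i = j then 1 else 0, fun _ _ _ _ => le_rfl, by simp, ?_, fun x => ?_⟩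
  · simp only [univ_unique, sum_singleton, one_mul]
    rw [prod_eq_single i (fun b _ hb => by simp [Ne.symm hb]) (fun h => absurd (mem_range.2 hi) h)]
    simp
  · simp only [univ_unique, sum_singleton, Int.cast_one, one_mul, Nat.sub_self, pow_zero, mul_one]
    rw [prod_eq_single i (fun b _ hb => by simp [Ne.symm hb]) (fun h => absurd (mem_range.2 hi) h)]
    simp

/-- `1 = (1 - x_i) + x_i` -/
theorem rep_one {i : ℕ} (hi : i < k) :
    Rep k y (fun j => if i = j then 1 else 0) 2 ((y i + 1 : ℕ) : ℤ) (fun _ => 1) := by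
  refine ⟨Bool, univ, fun _ => 1, fun b j => if b then (if i = j then 1 else 0) else 0, ?_, by simp, ?_, fun x => ?_⟩
  · intro b _ j _
    cases b <;> simp
  · simp only [Fintype.sum_bool, one_mul, if_true, Bool.false_eq_true, if_false, pow_zero, prod_const_one]
    rw [prod_eq_single i (fun b _ hb => by simp [Ne.symm hb]) (fun h => absurd (mem_range.2 hi) h)]
    simp
  · simp only [Fintype.sum_bool, Int.cast_one, one_mul, if_true, Bool.false_eq_true, if_false, pow_zero,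
      Nat.sub_self, mul_one, Nat.sub_zero]
    rw [prod_eq_single i (fun b _ hb => by simp [Ne.symm hb]) (fun h => absurd (mem_range.2 hi) h),
      prod_eq_single i (fun b _ hb => by simp [Ne.symm hb]) (fun h => absurd (mem_range.2 hi) h)]
    simp

/-- index type `ι ⊕ ι'`, `Finset.disjSum` -/
theorem Rep.add {δ : ℕ → ℕ} {N N' : ℕ} {K K' : ℤ} {f f' : (ℕ → ℝ) → ℝ} (h : Rep k y δ N K f)
    (h' : Rep k y δ N' K' f') : Rep k y δ (N + N') (K + K') (fun x => f x + f' x) := by
  obtain ⟨ι, s, a, μ, h1, h2, h3, h4⟩ := h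
  obtain ⟨ι', s', a', μ', h1', h2', h3', h4'⟩ := h'
  refine ⟨ι ⊕ ι', s.disjSum s', Sum.elim a a', Sum.elim μ μ', ?_, ?_, ?_, fun x => ?_⟩
  · rintro (i | i) hi j hj
    · exact h1 i (inl_mem_disjSum.1 hi) j hj
    · exact h1' i (inr_mem_disjSum.1 hi) j hj
  · rw [sum_disjSum]
    exact Nat.add_le_add h2 h2'
  · rw [sum_disjSum, h3, h3']
    rfl
  · show f x + f' x = _
    rw [sum_disjSum, h4 x, h4' x]
    rfl

theorem Rep.neg {δ : ℕ → ℕ} {N : ℕ} {K : ℤ} {f : (ℕ → ℝ) → ℝ} (h : Rep k y δ N K f) :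
    Rep k y δ N (-K) (fun x => -f x) := by
  obtain ⟨ι, s, a, μ, h1, h2, h3, h4⟩ := h
  refine ⟨ι, s, fun i => -a i, μ, h1, by simpa using h2, ?_, fun x => ?_⟩
  · rw [h3, ← sum_neg_distrib]
    exact sum_congr rfl fun i _ => by ring
  · show -f x = _
    rw [h4 x, ← sum_neg_distrib]
    exact sum_congr rfl fun i _ => by push_cast; ring

/-- index type `ι × ι'`, `Finset.sum_mul_sum`, `Finset.sum_product'` -/
theorem Rep.mul {δ δ' : ℕ → ℕ} {N N' : ℕ} {K K' : ℤ} {f f' : (ℕ → ℝ) → ℝ} (h : Rep k y δ N K f)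
    (h' : Rep k y δ' N' K' f') : Rep k y (fun j => δ j + δ' j) (N * N') (K * K') (fun x => f x * f' x) := by
  obtain ⟨ι, s, a, μ, h1, h2, h3, h4⟩ := h
  obtain ⟨ι', s', a', μ', h1', h2', h3', h4'⟩ := h'
  refine ⟨ι × ι', s ×ˢ s', fun p => a p.1 * a' p.2, fun p j => μ p.1 j + μ' p.2 j, ?_, ?_, ?_, fun x => ?_⟩
  · intro p hp j hj
    exact Nat.add_le_add (h1 _ (mem_product.1 hp).1 j hj) (h1' _ (mem_product.1 hp).2 j hj)
  · refine le_trans (le_of_eq ?_) (Nat.mul_le_mul h2 h2')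
    rw [sum_mul_sum, sum_product]
    exact sum_congr rfl fun i _ => sum_congr rfl fun i' _ => Int.natAbs_mul _ _
  · rw [h3, h3', sum_mul_sum, sum_product]
    refine sum_congr rfl fun i _ => sum_congr rfl fun i' _ => ?_
    simp only [pow_add, prod_mul_distrib]
    ring
  · show f x * f' x = _
    rw [h4 x, h4' x, sum_mul_sum, sum_product]
    refine sum_congr rfl fun i hi => sum_congr rfl fun i' hi' => ?_
    have e : ∏ j ∈ range k, (x j ^ (μ i j + μ' i' j) * (1 - x j) ^ (δ j + δ' j - (μ i j + μ' i' j))) =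
        (∏ j ∈ range k, (x j ^ μ i j * (1 - x j) ^ (δ j - μ i j))) *
          ∏ j ∈ range k, (x j ^ μ' i' j * (1 - x j) ^ (δ' j - μ' i' j)) := by
      rw [← prod_mul_distrib]
      refine prod_congr rfl fun j hj => ?_
      have g1 := h1 i hi j (mem_range.1 hj)
      have g2 := h1' i' hi' j (mem_range.1 hj)
      have g3 : δ j + δ' j - (μ i j + μ' i' j) = (δ j - μ i j) + (δ' j - μ' i' j) := by omega
      rw [g3, pow_add, pow_add]
      ring
    simp only []
    rw [e]
    push_cast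
    ring

theorem Rep.pow {δ : ℕ → ℕ} {N : ℕ} {K : ℤ} {f : (ℕ → ℝ) → ℝ} (h : Rep k y δ N K f) (n : ℕ) :
    Rep k y (fun j => δ j * n) (N ^ n) (K ^ n) (fun x => f x ^ n) := by
  induction n with
  | zero => exact (rep_cst 1).congr (fun j _ => by simp) (by simp) (by simp) (fun x => by simp)
  | succ n ih =>
    exact (ih.mul h).congr (fun j _ => by ring) (le_of_eq (pow_succ _ _).symm) (pow_succ _ _).symm
      (fun x => (pow_succ _ _).symm)

/-- induction on `l ≤ k` -/
theorem rep_elev_aux (δ : ℕ → ℕ) (l : ℕ) (hl : l ≤ k) :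
    Rep k y (fun j => if j < l then δ j else 0) (elev (fun _ => 1) δ l) (elev y δ l : ℕ) (fun _ => 1) := by
  induction l with
  | zero => exact (rep_cst 1).congr (fun j _ => by simp) le_rfl rfl (fun x => by simp)
  | succ l ih =>
    refine ((ih (by omega)).mul ((rep_one (y := y) (i := l) (by omega)).pow (δ l))).congr (fun j _ => ?_)
      (le_of_eq rfl) ?_ (fun x => by simp)
    · by_cases h1 : j < l
      · have h2 : l ≠ j := by omega
        have h3 : j < l + 1 := by omega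
        simp [h1, h2, h3]
      · by_cases h2 : l = j
        · subst h2
          simp
        · have h3 : ¬ j < l + 1 := by omega
          simp [h1, h2, h3]
    · show _ = ((elev y δ l * (y l + 1) ^ δ l : ℕ) : ℤ)
      push_cast
      ring

theorem rep_elev (δ : ℕ → ℕ) : Rep k y δ (elev (fun _ => 1) δ k) (elev y δ k : ℕ) (fun _ => 1) := by
  exact (rep_elev_aux δ k le_rfl).congr (fun j hj => if_pos hj) le_rfl rfl (fun _ => rfl)

theorem rp_beq {i j : ℕ} (h : i ≠ j) : Nat.beq i j = false := by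
  cases hb : Nat.beq i j
  · rfl
  · exact absurd (Nat.eq_of_beq_eq_true hb) h

/-- induction on `e`; the recursors unfold by `rfl`/`show` (e.g. `(PE.add a b).deg j = a.deg j + (b.deg j - a.deg j)`,
`(PE.add a b).hom y k = a.hom y k * (elev y (fun j => b.deg j - a.deg j) k : ℕ) + …`, `Int.pow v n = v ^ n`). -/
theorem rep_hom (e : PE) (h : e.wf k = true) :
    Rep k y (fun j => e.deg j) (e.nrm k) (e.hom y k) (fun x => e.eval x) := by
  induction e with
  | var i =>
    have hi : i < k := Nat.le_of_ble_eq_true h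
    refine (rep_var hi).congr (fun j _ => ?_) le_rfl rfl (fun _ => rfl)
    show _ = @Bool.rec (fun _ => ℕ) 0 1 (Nat.beq i j)
    by_cases hij : i = j
    · subst hij
      rw [if_pos rfl, Nat.beq_refl]
    · rw [if_neg hij, rp_beq hij]
  | cst z => exact rep_cst z
  | add a b iha ihb =>
    have hab : (a.wf k && b.wf k) = true := h
    rw [Bool.and_eq_true] at hab
    have ha := (iha hab.1).mul (rep_elev (y := y) (k := k) fun j => b.deg j - a.deg j)
    have hb := (ihb hab.2).mul (rep_elev (y := y) (k := k) fun j => a.deg j - b.deg j)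
    have hb' := hb.congr (δ' := fun j => a.deg j + (b.deg j - a.deg j)) (fun j _ => by omega) le_rfl rfl
      (fun _ => rfl)
    exact (ha.add hb').congr (fun _ _ => rfl) (le_of_eq rfl) rfl (fun x => by simp [PE.eval])
  | sub a b iha ihb =>
    have hab : (a.wf k && b.wf k) = true := h
    rw [Bool.and_eq_true] at hab
    have ha := (iha hab.1).mul (rep_elev (y := y) (k := k) fun j => b.deg j - a.deg j)
    have hb := (ihb hab.2).mul (rep_elev (y := y) (k := k) fun j => a.deg j - b.deg j)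
    have hb' := hb.congr (δ' := fun j => a.deg j + (b.deg j - a.deg j)) (fun j _ => by omega) le_rfl rfl
      (fun _ => rfl)
    exact (ha.add hb'.neg).congr (fun _ _ => rfl) (le_of_eq rfl) (sub_eq_add_neg _ _).symm
      (fun x => by simp [PE.eval, sub_eq_add_neg])
  | mul a b iha ihb =>
    have hab : (a.wf k && b.wf k) = true := h
    rw [Bool.and_eq_true] at hab
    exact ((iha hab.1).mul (ihb hab.2)).congr (fun _ _ => rfl) (le_of_eq rfl) rfl (fun _ => rfl)
  | pow a n iha =>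
    exact ((iha h).pow n).congr (fun _ _ => rfl) (le_of_eq rfl) rfl (fun _ => rfl)

end Crest.Agent.Bern
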