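import Crest.Agent.Lib.Bern.Kron

/-! # Lib/Bern/Root : the root tensor (helper prefix `rt_`). -/

set_option autoImplicit false

namespace Crest.Agent.Bern

open Finset

/-- `Nat.succ_mul_choose_eq`-type: `Nat.choose_succ_right_eq : n.choose (k+1) * (k+1) = n.choose k * (n-k)` -/
theorem binom_eq (d i : ℕ) : binom d i = d.choose i := by
  induction i with
  | zero => simp [binom]
  | succ l ih =>
    show binom d l * (d - l) / (l + 1) = _
    rw [ih, ← Nat.choose_succ_right_eq, Nat.mul_div_cancel _ (Nat.succ_pos l)]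

theorem rt_rleaf (W0 V N c : ℕ) : rleaf W0 V N c = if 2 ^ (W0 - 1) ≤ N + c * 2 ^ (V - 1) then
    min ((N + c * 2 ^ (V - 1) - 2 ^ (W0 - 1)) / c) (2 ^ V) else 2 ^ V := by
  have e : ∀ a b : ℕ, Nat.shiftLeft a b = a * 2 ^ b := fun a b => Nat.shiftLeft_eq a b
  show @Bool.rec (fun _ => ℕ) (Nat.shiftLeft 1 V)
    ((N + Nat.shiftLeft c (V - 1) - Nat.shiftLeft 1 (W0 - 1)) / c -
      ((N + Nat.shiftLeft c (V - 1) - Nat.shiftLeft 1 (W0 - 1)) / c - Nat.shiftLeft 1 V))
    (Nat.ble (Nat.shiftLeft 1 (W0 - 1)) (N + Nat.shiftLeft c (V - 1))) = _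
  simp only [e, one_mul]
  by_cases h : 2 ^ (W0 - 1) ≤ N + c * 2 ^ (V - 1)
  · rw [if_pos h, Nat.ble_eq_true_of_le h]
    exact (fun v w : ℕ => (by omega : v - (v - w) = min v w)) _ _
  · rw [if_neg h, show Nat.ble (2 ^ (W0 - 1)) (N + c * 2 ^ (V - 1)) = false from
      Bool.eq_false_iff.2 fun h' => h (Nat.le_of_ble_eq_true h')]

theorem rleaf_le (W0 V N c : ℕ) : rleaf W0 V N c ≤ 2 ^ V := by
  rw [rt_rleaf]
  split_ifs
  exacts [min_le_right _ _, le_rfl]

theorem rleaf_spec {W0 V N c : ℕ} (hc : 0 < c) (h : rleaf W0 V N c < 2 ^ V) :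
    (rleaf W0 V N c : ℝ) - 2 ^ (V - 1) ≤ ((N : ℝ) - 2 ^ (W0 - 1)) / c := by
  rw [rt_rleaf] at h ⊢
  split_ifs at h ⊢ with h1
  · have hc' : (0 : ℝ) < c := by exact_mod_cast hc
    have h2 : ((min ((N + c * 2 ^ (V - 1) - 2 ^ (W0 - 1)) / c) (2 ^ V) : ℕ) : ℝ) ≤
        ((N + c * 2 ^ (V - 1) - 2 ^ (W0 - 1) : ℕ) : ℝ) / c :=
      le_trans (by exact_mod_cast min_le_left _ _) Nat.cast_div_le
    rw [Nat.cast_sub h1] at h2
    push_cast at h2 ⊢
    have e : ((N : ℝ) + c * 2 ^ (V - 1) - 2 ^ (W0 - 1)) / c = ((N : ℝ) - 2 ^ (W0 - 1)) / c + 2 ^ (V - 1) := by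
      field_simp; ring
    linarith
  · exact absurd h (lt_irrefl _)

/-- Induction on `sh` generalizing `N`, `c`; inner induction on the number `l` of blocks:
the accumulator has lanes `0` for `t ≥ l * size r` and `rleaf … (lane W0 N t) (c * cb (d :: r) t)` for `t < l * size r`.
`land_shiftRight_full` (note `(i * size r) * W0 = i * (size r * W0)`), `lane_lane`, `lane_lor`, `lane_shiftLeft`, `lane_lt`. -/
theorem lane_repack {W0 W V : ℕ} (hV : V + 1 ≤ W) (sh : List ℕ) (N c : ℕ) (hN : N < 2 ^ (size sh * W0)) (t : ℕ) :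
    lane W (repack W0 W V sh N c) t =
      if t < size sh then rleaf W0 V (lane W0 N t) (c * cb sh t) else 0 := by
  induction sh generalizing N c t with
  | nil =>
    have h1 : rleaf W0 V N c < 2 ^ W :=
      (rleaf_le _ _ _ _).trans_lt (Nat.pow_lt_pow_right (by norm_num) (by omega))
    show lane W (rleaf W0 V N c) t = if t < 1 then rleaf W0 V (lane W0 N t) (c * 1) else 0
    have hN' : N < 2 ^ W0 := by simpa [size] using hN
    split_ifs with ht
    · obtain rfl : t = 0 := by omega
      rw [lane_zero_of_lt h1, lane_zero_of_lt hN', mul_one]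
    · exact lane_eq_zero_of_lt (n := 1) (by simpa using h1) (by omega)
  | cons d r ih =>
    have hs := size_pos r
    have key : ∀ l : ℕ, lane W (@Nat.rec (fun _ => ℕ) 0
        (fun i acc => acc ||| (repack W0 W V r ((N >>> (i * size r * W0)) &&& full (size r * W0))
          (c * binom d i)) <<< (i * size r * W)) l) t =
        if t < l * size r then rleaf W0 V (lane W0 N t) (c * cb (d :: r) t) else 0 := by
      intro l
      induction l with
      | zero => simp [lane_zero]
      | succ i ihi =>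
        show lane W (_ ||| _) t = _
        rw [lane_lor, ihi, lane_shiftLeft, mul_assoc i (size r) W0, land_shiftRight_full,
          ih _ _ (lane_lt _ _ _), lane_lane]
        by_cases h1 : t < i * size r
        · rw [if_pos h1, if_pos h1, if_pos (by nlinarith), Nat.or_zero]
        · rw [if_neg h1, if_neg h1, Nat.zero_or]
          obtain ⟨u, rfl⟩ := Nat.exists_eq_add_of_le (not_lt.1 h1)
          rw [Nat.add_sub_cancel_left, Nat.succ_mul]
          by_cases h2 : u < size r
          · rw [if_pos h2, if_pos h2, if_pos (by omega), cb, binom_eq, mul_assoc,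
              show (i * size r + u) / size r = i by
                rw [add_comm, Nat.add_mul_div_right _ _ hs, Nat.div_eq_of_lt h2, zero_add],
              show (i * size r + u) % size r = u by
                rw [add_comm, Nat.add_mul_mod_self_right, Nat.mod_eq_of_lt h2]]
          · rw [if_neg h2, if_neg (by omega)]
    exact key (d + 1)

theorem rt_ok {W0 : ℕ} {sh : List ℕ} {e : PE × ℕ} {es : List (PE × ℕ)} (h : rootOk W0 sh (e :: es) = true) :
    (kronOk W0 sh e.1 = true ∧ 0 < e.2) ∧ rootOk W0 sh es = true := by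
  have h' : ((kronOk W0 sh e.1 && Nat.ble 1 e.2) && rootOk W0 sh es) = true := h
  simp only [Bool.and_eq_true] at h'
  exact ⟨⟨h'.1.1, Nat.le_of_ble_eq_true h'.1.2⟩, h'.2⟩

/-- induction on `es` generalizing `j`; `rootOk` gives `kronOk` and a positive divisor for every entry -/
theorem lane_root {W0 W V : ℕ} (hW : 1 ≤ W0) (hV : V + 1 ≤ W) (sh : List ℕ) (es : List (PE × ℕ))
    (h : rootOk W0 sh es = true) (j : ℕ) (hj : j < es.length) (t : ℕ) (ht : t < size sh) :
    lane W (root W0 W V sh es) (j * size sh + t) =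
      rleaf W0 V (lane W0 (kron W0 sh es[j].1) t) (es[j].2 * cb sh t) := by
  induction es generalizing j with
  | nil => simp at hj
  | cons e es ih =>
    obtain ⟨⟨h1, -⟩, h2⟩ := rt_ok h
    obtain ⟨A, -, hk, -⟩ := kron_spec hW h1
    show lane W (repack W0 W V sh (kron W0 sh e.1) e.2 ||| root W0 W V sh es <<< (size sh * W)) _ = _
    rw [lane_lor, lane_repack hV _ _ _ hk, lane_shiftLeft]
    cases j with
    | zero => simp [ht]
    | succ j =>
      have h3 : ¬ (j + 1) * size sh + t < size sh := by nlinarith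
      rw [if_neg h3, if_neg h3, Nat.zero_or, show (j + 1) * size sh + t - size sh = j * size sh + t by
        rw [Nat.succ_mul]; omega, ih h2 j (by simpa using hj)]
      rfl

theorem rootOk_get {W0 : ℕ} (sh : List ℕ) (es : List (PE × ℕ)) (h : rootOk W0 sh es = true) (j : ℕ)
    (hj : j < es.length) : kronOk W0 sh es[j].1 = true ∧ 0 < es[j].2 := by
  induction es generalizing j with
  | nil => simp at hj
  | cons e es ih =>
    obtain ⟨h1, h2⟩ := rt_ok h
    cases j with
    | zero => exact h1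
    | succ j => exact ih h2 j (by simpa using hj)

/-- `kron_spec`, `lane_root`, `rleaf_spec`, `cb_pos`, `ev_mono`, `ev_mul` -/
theorem root_le {W0 W V : ℕ} (hW : 1 ≤ W0) (hV : V + 1 ≤ W) (sh : List ℕ) (es : List (PE × ℕ))
    (h : rootOk W0 sh es = true) (hb : Bd W V (root W0 W V sh es)) (x : ℕ → ℝ) (hx : In01 x)
    (j : ℕ) (hj : j < es.length) :
    ev sh 0 x (co W V (root W0 W V sh es)) (j * size sh) ≤ es[j].1.eval x / (es[j].2 : ℝ) := by
  obtain ⟨h1, h2⟩ := rootOk_get sh es h j hj
  obtain ⟨A, hA, -, he⟩ := kron_spec hW h1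
  rw [he x, div_eq_inv_mul, ← ev_mul]
  refine ev_mono hx sh 0 fun t ht => ?_
  have hl := lane_root hW hV sh es h j hj t ht
  have h3 := hb (j * size sh + t)
  rw [hl] at h3
  have h4 := rleaf_spec (Nat.mul_pos h2 (cb_pos sh t ht)) h3
  have h5 : (lane W0 (kron W0 sh es[j].1) t : ℝ) = A t + 2 ^ (W0 - 1) := by exact_mod_cast hA t ht
  rw [co, hl, zero_add]
  refine h4.trans (le_of_eq ?_)
  rw [h5]
  push_cast
  rw [add_sub_cancel_right, ← div_div, div_right_comm, div_eq_inv_mul]

end Crest.Agent.Bern
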